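import Crest.Agent.R104.Defs
import Mathlib

-- ▼ part R104/A1
section

/-! S0137 (rid 104): tasks A1 and A2, algebraic input about quartic Salem numbers. -/

set_option autoImplicit false

namespace Crest.Agent.R104

open Polynomial Crest.AnalysisR
open scoped Real

/-- `1, β, β², β³` are linearly independent over the rationals. -/
theorem salem_indep {β : ℝ} (hβ : IsQuarticSalem β) {x0 x1 x2 x3 : ℚ}
    (h : (x0 : ℝ) + x1 * β + x2 * β ^ 2 + x3 * β ^ 3 = 0) :
    x0 = 0 ∧ x1 = 0 ∧ x2 = 0 ∧ x3 = 0 := by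
  set Q : ℚ[X] := C x0 + C x1 * X + C x2 * X ^ 2 + C x3 * X ^ 3 with hQ
  have hdeg : Q.degree < 4 := by
    rw [hQ]; compute_degree!
  have haev : aeval β Q = 0 := by
    rw [hQ]; simpa using h
  have hQ0 : Q = 0 := by
    by_contra hne
    have h1 := minpoly.degree_le_of_ne_zero ℚ β hne haev
    have h2 : (minpoly ℚ β).degree = 4 := by
      rw [Polynomial.degree_eq_natDegree, hβ.2.2.1]
      · rfl
      · intro h0
        have := hβ.2.2.1
        rw [h0] at this
        simp at this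
    rw [h2] at h1
    exact absurd hdeg (not_lt.2 h1)
  have c0 : Q.coeff 0 = x0 := by
    rw [hQ]; simp [coeff_X, coeff_C]
  have c1 : Q.coeff 1 = x1 := by
    rw [hQ]; simp [coeff_X, coeff_C]
  have c2 : Q.coeff 2 = x2 := by
    rw [hQ]; simp [coeff_X, coeff_C]
  have c3 : Q.coeff 3 = x3 := by
    rw [hQ]; simp [coeff_X, coeff_C]
  rw [hQ0] at c0 c1 c2 c3
  simp only [coeff_zero] at c0 c1 c2 c3
  exact ⟨c0.symm, c1.symm, c2.symm, c3.symm⟩

/-- evaluation of the minimal polynomial at a real point through its integer coefficients -/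
theorem salem_eval {β : ℝ} (hβ : IsQuarticSalem β) (x : ℝ) :
    aeval x (minpoly ℚ β) = ((minpoly ℤ β).coeff 0 : ℝ) + ((minpoly ℤ β).coeff 1 : ℝ) * x +
      ((minpoly ℤ β).coeff 2 : ℝ) * x ^ 2 + ((minpoly ℤ β).coeff 3 : ℝ) * x ^ 3 + x ^ 4 := by
  have hmap : minpoly ℚ β = (minpoly ℤ β).map (algebraMap ℤ ℚ) :=
    minpoly.isIntegrallyClosed_eq_field_fractions' ℚ hβ.2.1
  have hd : (minpoly ℤ β).natDegree = 4 := by
    have := hβ.2.2.1
    rw [hmap, (minpoly.monic hβ.2.1).natDegree_map] at this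
    exact this
  have hlead : (minpoly ℤ β).coeff 4 = 1 := by
    have := (minpoly.monic hβ.2.1).coeff_natDegree
    rwa [hd] at this
  rw [hmap, aeval_map_algebraMap, aeval_eq_sum_range, hd]
  simp only [Finset.sum_range_succ, Finset.sum_range_zero, hlead, zsmul_eq_mul]
  push_cast
  ring

/-- TASK A2: `β⁻¹` is integral -/
theorem taskA2 (β : ℝ) (hβ : IsQuarticSalem β) : IsIntegral ℤ β⁻¹ := by
  have hmap : minpoly ℚ β = (minpoly ℤ β).map (algebraMap ℤ ℚ) :=
    minpoly.isIntegrallyClosed_eq_field_fractions' ℚ hβ.2.1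
  refine ⟨minpoly ℤ β, minpoly.monic hβ.2.1, ?_⟩
  have h := hβ.2.2.2.1
  rw [hmap, aeval_map_algebraMap] at h
  exact h

theorem int_sq_eq_one {a : ℤ} (h : a ^ 2 = 1) : a = 1 ∨ a = -1 := by
  have h' : (a - 1) * (a + 1) = 0 := by linear_combination h
  rcases mul_eq_zero.1 h' with h | h
  · left; linarith
  · right; linarith

/-- the quadratic data of a quartic Salem number -/
theorem salem_pc {β : ℝ} (hβ : IsQuarticSalem β) :
    ∃ (A B : ℤ) (c : ℝ), |c| ≤ 2 ∧ (β + β⁻¹) + c = A ∧ (β + β⁻¹) * c = B := by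
  have h1 : 1 < β := hβ.1
  have hβ0 : β ≠ 0 := by positivity
  set a0 : ℤ := (minpoly ℤ β).coeff 0 with ha0
  set a1 : ℤ := (minpoly ℤ β).coeff 1 with ha1
  set a2 : ℤ := (minpoly ℤ β).coeff 2 with ha2
  set a3 : ℤ := (minpoly ℤ β).coeff 3 with ha3
  have ev := salem_eval hβ
  rw [← ha0, ← ha1, ← ha2, ← ha3] at ev
  have e1 : (a0 : ℝ) + a1 * β + a2 * β ^ 2 + a3 * β ^ 3 + β ^ 4 = 0 := by
    rw [← ev β]; exact minpoly.aeval ℚ β
  have e2 : (a0 : ℝ) * β ^ 4 + a1 * β ^ 3 + a2 * β ^ 2 + a3 * β + 1 = 0 := by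
    have h := hβ.2.2.2.1
    rw [ev] at h
    have h' : β ^ 4 * ((a0 : ℝ) + a1 * β⁻¹ + a2 * β⁻¹ ^ 2 + a3 * β⁻¹ ^ 3 + β⁻¹ ^ 4) = 0 := by
      rw [h, mul_zero]
    have h'' : β ^ 4 * ((a0 : ℝ) + a1 * β⁻¹ + a2 * β⁻¹ ^ 2 + a3 * β⁻¹ ^ 3 + β⁻¹ ^ 4)
        = (a0 : ℝ) * β ^ 4 + a1 * β ^ 3 + a2 * β ^ 2 + a3 * β + 1 := by
      field_simp
    rw [← h'', h']
  -- palindromic up to the sign `a0`
  have e3 : (((1 - a0 ^ 2 : ℤ) : ℚ) : ℝ) + (((a3 - a0 * a1 : ℤ) : ℚ) : ℝ) * β +
      (((a2 - a0 * a2 : ℤ) : ℚ) : ℝ) * β ^ 2 + (((a1 - a0 * a3 : ℤ) : ℚ) : ℝ) * β ^ 3 = 0 := by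
    push_cast
    linear_combination e2 - (a0 : ℝ) * e1
  obtain ⟨f0, f1, f2, f3⟩ := salem_indep hβ e3
  have g0 : a0 ^ 2 = 1 := by
    have : (1 - a0 ^ 2 : ℤ) = 0 := by exact_mod_cast f0
    linarith
  have g1 : a3 = a0 * a1 := by
    have : (a3 - a0 * a1 : ℤ) = 0 := by exact_mod_cast f1
    linarith
  have g2 : a2 = a0 * a2 := by
    have : (a2 - a0 * a2 : ℤ) = 0 := by exact_mod_cast f2
    linarith
  have ha0' : a0 = 1 := by
    rcases (int_sq_eq_one g0) with h | h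
    · exact h
    · exfalso
      rw [h] at g1 g2
      have g2' : a2 = 0 := by linarith
      have e4 : (β ^ 2 - 1) * (β ^ 2 + a3 * β + 1) = 0 := by
        have e5 : (a0 : ℝ) = -1 := by rw [h]; norm_num
        have e6 : (a1 : ℝ) = - a3 := by rw [g1]; push_cast; ring
        have e7 : (a2 : ℝ) = 0 := by rw [g2']; norm_num
        rw [e5, e6, e7] at e1
        linear_combination e1
      have hne : β ^ 2 - 1 ≠ 0 := by nlinarith
      have e5 : β ^ 2 + a3 * β + 1 = 0 := (mul_eq_zero.1 e4).resolve_left hne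
      have e6 : ((1 : ℚ) : ℝ) + ((a3 : ℚ) : ℝ) * β + ((1 : ℚ) : ℝ) * β ^ 2 + ((0 : ℚ) : ℝ) * β ^ 3 = 0 := by
        push_cast
        linear_combination e5
      exact one_ne_zero (salem_indep hβ e6).1
  have ha3' : a3 = a1 := by rw [g1, ha0', one_mul]
  have hA0 : (a0 : ℝ) = 1 := by rw [ha0']; norm_num
  have hA3 : (a3 : ℝ) = a1 := by rw [ha3']
  rw [hA0, hA3] at e1
  have hinv : β * β⁻¹ = 1 := mul_inv_cancel₀ hβ0
  set p : ℝ := β + β⁻¹ with hp
  have hpq : p ^ 2 + a1 * p + a2 - 2 = 0 := by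
    have : β ^ 2 * (p ^ 2 + a1 * p + a2 - 2) = 0 := by
      rw [hp]
      have h2 : β ^ 2 * ((β + β⁻¹) ^ 2 + a1 * (β + β⁻¹) + a2 - 2)
          = 1 + a1 * β + a2 * β ^ 2 + a1 * β ^ 3 + β ^ 4 := by
        field_simp
        ring
      rw [h2, e1]
    rcases mul_eq_zero.1 this with h | h
    · exact absurd h (pow_ne_zero 2 hβ0)
    · exact h
  refine ⟨-a1, a2 - 2, -a1 - p, ?_, by push_cast; ring, ?_⟩
  · -- the bound on `c`
    by_contra hc
    rw [not_le] at hc
    set c : ℝ := -a1 - p with hcdef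
    have hc2 : 4 < c ^ 2 := by
      have : (2 : ℝ) ^ 2 < |c| ^ 2 := pow_lt_pow_left₀ hc (by norm_num) (by norm_num)
      rw [sq_abs] at this
      linarith
    set s : ℝ := Real.sqrt (c ^ 2 - 4) with hs
    have hs2 : s ^ 2 = c ^ 2 - 4 := Real.sq_sqrt (by linarith)
    set z : ℝ := (c + s) / 2 with hz
    have hz2 : z ^ 2 - c * z + 1 = 0 := by
      rw [hz]; linear_combination (1 / 4 : ℝ) * hs2
    have hPz : aeval z (minpoly ℚ β) = 0 := by
      rw [ev z, hA0, hA3]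
      have hfac : (1 : ℝ) + a1 * z + a2 * z ^ 2 + a1 * z ^ 3 + z ^ 4
          = (z ^ 2 - c * z + 1) * (z ^ 2 - p * z + 1) + (p ^ 2 + a1 * p + a2 - 2) * z ^ 2 := by
        rw [hcdef]; ring
      rw [hfac, hz2, hpq]; ring
    have hPzC : aeval ((z : ℝ) : ℂ) (minpoly ℚ β) = 0 := by
      have := aeval_algebraMap_apply ℂ z (minpoly ℚ β)
      rw [hPz, map_zero] at this
      exact this
    -- if `c = p` then `β` is quadratic over the rationals
    have hcp : c = p → False := by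
      intro h
      have h3 : 2 * (β + β⁻¹) + a1 = 0 := by
        rw [← hp]; rw [hcdef] at h; linarith
      have h4 : 2 + a1 * β + 2 * β ^ 2 = 0 := by
        have h5 : β * (2 * (β + β⁻¹) + a1) = 0 := by rw [h3, mul_zero]
        linear_combination h5 - 2 * hinv
      have e6 : ((2 : ℚ) : ℝ) + ((a1 : ℚ) : ℝ) * β + ((2 : ℚ) : ℝ) * β ^ 2 + ((0 : ℚ) : ℝ) * β ^ 3 = 0 := by
        push_cast
        linear_combination h4
      exact two_ne_zero (salem_indep hβ e6).1
    rcases hβ.2.2.2.2 _ hPzC with h | h | h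
    · have hzβ : z = β := by exact_mod_cast h
      apply hcp
      rw [hzβ] at hz2
      have : c * β = β ^ 2 + 1 := by linarith
      have h6 : c = (β ^ 2 + 1) * β⁻¹ := by
        rw [← this, mul_assoc, hinv, mul_one]
      rw [h6, hp]
      field_simp
    · have hzβ : z = β⁻¹ := by exact_mod_cast h
      apply hcp
      rw [hzβ] at hz2
      have h7 : β ^ 2 * (β⁻¹ ^ 2 - c * β⁻¹ + 1) = 0 := by rw [hz2, mul_zero]
      have h8 : β ^ 2 * (β⁻¹ ^ 2 - c * β⁻¹ + 1) = 1 - c * β + β ^ 2 := by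
        field_simp
      have : c * β = β ^ 2 + 1 := by rw [h8] at h7; linarith
      have h6 : c = (β ^ 2 + 1) * β⁻¹ := by
        rw [← this, mul_assoc, hinv, mul_one]
      rw [h6, hp]
      field_simp
    · rw [Complex.norm_real, Real.norm_eq_abs] at h
      rcases abs_eq (by norm_num : (0 : ℝ) ≤ 1) |>.1 h with h' | h'
      · rw [h'] at hz2
        have : c = 2 := by linarith
        rw [this] at hc2; norm_num at hc2
      · rw [h'] at hz2
        have : c = -2 := by linarith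
        rw [this] at hc2; norm_num at hc2
  · push_cast
    linear_combination -hpq

/-- TASK A1: algebraic input -/
theorem taskA1 (β : ℝ) (hβ : IsQuarticSalem β) :
    ∃ θ : ℝ, ∀ m : ℤ, ∃ n : ℤ, β ^ m + β ^ (-m) + 2 * Real.cos (m * θ) = n := by
  obtain ⟨A, B, c, hc, hA, hB⟩ := salem_pc hβ
  have h1 : 1 < β := hβ.1
  have hβ0 : β ≠ 0 := by positivity
  have hcos : 2 * Real.cos (Real.arccos (c / 2)) = c := by
    have := abs_le.1 hc
    rw [Real.cos_arccos (by linarith) (by linarith)]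
    ring
  set θ := Real.arccos (c / 2) with hθ
  have key : ∀ m : ℕ,
      (∃ n : ℤ, β ^ (m : ℤ) + β ^ (-(m : ℤ)) + 2 * Real.cos (m * θ) = n) ∧
      (∃ n : ℤ, c * (β ^ (m : ℤ) + β ^ (-(m : ℤ))) + (β + β⁻¹) * (2 * Real.cos (m * θ)) = n) ∧
      (∃ n : ℤ, β ^ ((m + 1 : ℕ) : ℤ) + β ^ (-((m + 1 : ℕ) : ℤ)) + 2 * Real.cos ((m + 1 : ℕ) * θ) = n) ∧
      (∃ n : ℤ, c * (β ^ ((m + 1 : ℕ) : ℤ) + β ^ (-((m + 1 : ℕ) : ℤ))) +
        (β + β⁻¹) * (2 * Real.cos ((m + 1 : ℕ) * θ)) = n) := by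
    intro m
    induction m with
    | zero =>
      refine ⟨⟨4, ?_⟩, ⟨2 * A, ?_⟩, ⟨A, ?_⟩, ⟨2 * B, ?_⟩⟩
      · norm_num
      · norm_num
        linear_combination 2 * hA
      · norm_num
        rw [← hA, hcos]
      · norm_num
        rw [hcos]
        linear_combination 2 * hB
    | succ m ih =>
      obtain ⟨⟨s0, hs0⟩, ⟨r0, hr0⟩, ⟨s1, hs1⟩, ⟨r1, hr1⟩⟩ := ih
      refine ⟨⟨s1, hs1⟩, ⟨r1, hr1⟩, ⟨A * s1 - r1 - s0, ?_⟩, ⟨B * s1 - r0, ?_⟩⟩
      all_goals
        have hu : β ^ ((m + 1 + 1 : ℕ) : ℤ) + β ^ (-((m + 1 + 1 : ℕ) : ℤ))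
            = (β + β⁻¹) * (β ^ ((m + 1 : ℕ) : ℤ) + β ^ (-((m + 1 : ℕ) : ℤ)))
              - (β ^ (m : ℤ) + β ^ (-(m : ℤ))) := by
          rw [zpow_neg, zpow_neg, zpow_neg, zpow_natCast, zpow_natCast, zpow_natCast]
          field_simp
          ring
        have hv : 2 * Real.cos ((m + 1 + 1 : ℕ) * θ)
            = c * (2 * Real.cos ((m + 1 : ℕ) * θ)) - 2 * Real.cos (m * θ) := by
          have e1 : ((m + 1 + 1 : ℕ) : ℝ) * θ = ((m + 1 : ℕ) : ℝ) * θ + θ := by push_cast; ring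
          have e2 : (m : ℝ) * θ = ((m + 1 : ℕ) : ℝ) * θ - θ := by push_cast; ring
          rw [e1, e2, Real.cos_add, Real.cos_sub, ← hcos]
          ring
        rw [hu, hv]
        push_cast [← hA, ← hB, ← hs0, ← hs1, ← hr0, ← hr1]
        ring
  refine ⟨θ, fun m => ?_⟩
  obtain ⟨k, rfl | rfl⟩ := m.eq_nat_or_neg
  · obtain ⟨n, hn⟩ := (key k).1
    exact ⟨n, by push_cast; exact_mod_cast hn⟩
  · obtain ⟨n, hn⟩ := (key k).1
    refine ⟨n, ?_⟩
    rw [← hn]
    push_cast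
    rw [neg_neg, neg_mul, Real.cos_neg]
    ring

end Crest.Agent.R104
end

-- ▼ part R104/C1
section

/-!
Task C1: characteristic function of finite sign sums under the fair coin measure.
-/

set_option autoImplicit false

namespace Crest.Agent.R104

open MeasureTheory ProbabilityTheory Crest.AnalysisR
open scoped Real ENNReal

instance fairCoin_isProb : IsProbabilityMeasure fairCoin := by
  constructor
  simp only [fairCoin, Measure.coe_add, Measure.coe_smul, Pi.add_apply, Pi.smul_apply,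
    measure_univ, smul_eq_mul, mul_one]
  exact ENNReal.inv_two_add_inv_two

lemma integral_fairCoin {E : Type*} [NormedAddCommGroup E] [NormedSpace ℝ E] [CompleteSpace E]
    (f : Bool → E) :
    ∫ b, f b ∂fairCoin = (1 / 2 : ℝ) • (f true + f false) := by
  have hi : ∀ b : Bool, Integrable f ((2⁻¹ : ℝ≥0∞) • Measure.dirac b) := fun b =>
    Integrable.smul_measure (integrable_dirac (by simp [enorm_lt_top])) (by simp)
  unfold fairCoin
  rw [integral_add_measure (hi true) (hi false), integral_smul_measure, integral_smul_measure,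
    integral_dirac, integral_dirac]
  simp [smul_add]

lemma coins_integral_prod (s : Finset ℕ) (g : ℕ → Bool → ℂ) :
    ∫ ω, ∏ i ∈ s, g i (ω i) ∂coins = ∏ i ∈ s, ∫ b, g i b ∂fairCoin := by
  have hind : iIndepFun (fun (i : ℕ) (ω : ℕ → Bool) => ω i) coins :=
    iIndepFun_infinitePi (P := fun _ : ℕ => fairCoin) (X := fun _ b => b)
      (fun _ => measurable_id)
  have hind' : iIndepFun (fun (i : s) (ω : ℕ → Bool) => ω (i : ℕ)) coins :=
    hind.precomp Subtype.val_injective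
  have h := hind'.integral_fun_prod_comp (f := fun i : s => g (i : ℕ))
    (fun i => (measurable_pi_apply _).aemeasurable)
    (fun i => (measurable_of_countable _).aestronglyMeasurable)
  have e1 : (fun ω : ℕ → Bool => ∏ i : s, g (i : ℕ) (ω (i : ℕ))) =
      fun ω => ∏ i ∈ s, g i (ω i) := by
    funext ω
    exact Finset.prod_coe_sort s (fun i => g i (ω i))
  rw [e1] at h
  rw [h, Finset.prod_coe_sort s (fun i => ∫ ω : ℕ → Bool, g i (ω i) ∂coins)]
  refine Finset.prod_congr rfl fun i _ => ?_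
  have hm : Measure.map (fun ω : ℕ → Bool => ω i) coins = fairCoin :=
    Measure.infinitePi_map_eval (fun _ : ℕ => fairCoin) i
  rw [← hm, integral_map (measurable_pi_apply _).aemeasurable
    (measurable_of_countable _).aestronglyMeasurable]

/-- complex characteristic function -/
lemma coins_integral_exp (s : Finset ℕ) (a : ℕ → ℝ) :
    ∫ ω, Complex.exp (((2 * π * ∑ i ∈ s, sg (ω i) * a i : ℝ) : ℂ) * Complex.I) ∂coins =
      ((∏ i ∈ s, cc (a i) : ℝ) : ℂ) := by
  have e1 : (fun ω : ℕ → Bool =>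
      Complex.exp (((2 * π * ∑ i ∈ s, sg (ω i) * a i : ℝ) : ℂ) * Complex.I)) =
      fun ω => ∏ i ∈ s, Complex.exp (((2 * π * (sg (ω i) * a i) : ℝ) : ℂ) * Complex.I) := by
    funext ω
    rw [← Complex.exp_sum, Finset.mul_sum, Complex.ofReal_sum, Finset.sum_mul]
  rw [e1, coins_integral_prod s
    (fun i b => Complex.exp (((2 * π * (sg b * a i) : ℝ) : ℂ) * Complex.I)),
    Complex.ofReal_prod]
  refine Finset.prod_congr rfl fun i _ => ?_
  rw [integral_fairCoin]
  have h1 : Complex.exp (((2 * π * (sg true * a i) : ℝ) : ℂ) * Complex.I) +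
      Complex.exp (((2 * π * (sg false * a i) : ℝ) : ℂ) * Complex.I) =
      2 * ((cc (a i) : ℝ) : ℂ) := by
    simp only [sg, cc, if_true, Bool.false_eq_true, if_false, one_mul, neg_mul, mul_neg,
      Complex.ofReal_neg, Complex.ofReal_cos]
    rw [Complex.two_cos]
    simp
  rw [h1]
  simp

/-- TASK C1: characteristic function of finite sign sums -/
theorem taskC1 (s : Finset ℕ) (a : ℕ → ℝ) :
    ∫ ω, cc (∑ i ∈ s, sg (ω i) * a i) ∂coins = ∏ i ∈ s, cc (a i) := by
  have h := coins_integral_exp s a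
  have hmeas : Measurable fun ω : ℕ → Bool => ∑ i ∈ s, sg (ω i) * a i := by
    refine Finset.measurable_sum _ fun i _ => ?_
    exact ((measurable_of_countable sg).comp (measurable_pi_apply i)).mul_const _
  have hint : Integrable (fun ω : ℕ → Bool =>
      Complex.exp (((2 * π * ∑ i ∈ s, sg (ω i) * a i : ℝ) : ℂ) * Complex.I)) coins := by
    refine Integrable.of_bound (C := 1) ?_ (Filter.Eventually.of_forall fun ω => ?_)
    · refine Measurable.aestronglyMeasurable ?_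
      refine Complex.measurable_exp.comp ?_
      exact (Complex.measurable_ofReal.comp (hmeas.const_mul _)).mul_const _
    · rw [Complex.norm_exp_ofReal_mul_I]
  have h2 := congrArg Complex.re h
  rw [Complex.ofReal_re] at h2
  rw [← h2, ← RCLike.re_eq_complex_re, ← integral_re hint]
  refine integral_congr_ae (Filter.Eventually.of_forall fun ω => ?_)
  simp only [RCLike.re_eq_complex_re, cc]
  rw [Complex.exp_ofReal_mul_I_re]

end Crest.Agent.R104
end

-- ▼ part R104/E2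
section

/-! S0137 (rid 104): task E2, measurability and boundedness of the signed power sum. -/

set_option autoImplicit false

namespace Crest.Agent.R104

open MeasureTheory Crest.AnalysisR

/-- TASK E2: `signedPowerSum` is continuous/measurable with the bound -/
theorem taskE2 (β : ℝ) (h1 : 1 < β) :
    Measurable (signedPowerSum β⁻¹) ∧ ∀ ω, |signedPowerSum β⁻¹ ω| ≤ β / (β - 1) := by
  have hβ0 : 0 < β := by linarith
  have hi0 : 0 ≤ β⁻¹ := inv_nonneg.2 hβ0.le
  have hi1 : β⁻¹ < 1 := inv_lt_one_of_one_lt₀ h1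
  have hb : ∀ (n : ℕ) (ω : ℕ → Bool), ‖(if ω n then β⁻¹ ^ n else -(β⁻¹ ^ n))‖ ≤ β⁻¹ ^ n := by
    intro n ω
    have : |β⁻¹ ^ n| = β⁻¹ ^ n := abs_of_nonneg (pow_nonneg hi0 n)
    split_ifs
    · rw [Real.norm_eq_abs, this]
    · rw [norm_neg, Real.norm_eq_abs, this]
  refine ⟨Continuous.measurable ?_, fun ω => ?_⟩
  · unfold signedPowerSum
    refine continuous_tsum (fun n => ?_) (summable_geometric_of_lt_one hi0 hi1) hb
    have hc : Continuous (fun b : Bool => (if b then β⁻¹ ^ n else -(β⁻¹ ^ n))) :=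
      continuous_of_discreteTopology
    exact hc.comp (continuous_apply n)
  · have h2 := tsum_of_norm_bounded (hasSum_geometric_of_lt_one hi0 hi1) (fun n => hb n ω)
    have h3 : (1 - β⁻¹)⁻¹ = β / (β - 1) := by
      have : β - 1 ≠ 0 := by linarith
      have h4 : (1 - β⁻¹) = (β - 1) / β := by field_simp
      rw [h4, inv_div]
    rw [← h3]
    exact h2

end Crest.Agent.R104
end

-- ▼ part R104/Final
section

/-! S0137 (rid 104): assembly of the tasks. -/

set_option autoImplicit false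

namespace Crest.Agent.R104

open MeasureTheory Crest.AnalysisR
open scoped Real

theorem continuous_F (β t : ℝ) (K N : ℕ) : Continuous (F β t K N) := by
  unfold F cc
  fun_prop

theorem abs_F_le (β t : ℝ) (K N : ℕ) (x : ℝ) : |F β t K N x| ≤ |1 / (N : ℝ)| * N := by
  unfold F
  rw [abs_mul]
  refine mul_le_mul_of_nonneg_left ?_ (abs_nonneg _)
  refine (Finset.abs_sum_le_sum_abs _ _).trans ?_
  refine (Finset.sum_le_sum (g := fun _ => (1 : ℝ)) fun i _ => Real.abs_cos_le_one _).trans ?_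
  simp

theorem final_of
    (hB : ∀ (β θ : ℝ), 1 < β → IsIntegral ℤ β → IsIntegral ℤ β⁻¹ →
      (∀ m : ℤ, ∃ n : ℤ, β ^ m + β ^ (-m) + 2 * Real.cos (m * θ) = n) →
      ∀ (κ : ℝ), 0 < κ → ∃ (t A : ℝ) (K : ℕ), 1 ≤ t ∧ 0 < A ∧ A ≤ 1 ∧ t * β ^ (-(K : ℤ)) ≤ A ∧
        (∀ m : ℤ, (K : ℤ) < m → ∃ n : ℤ, |t * β ^ m - n| ≤ 2 * A) ∧
        0 < |q β t K| ∧ ((K : ℝ) + 1) * A ≤ κ * (q β t K) ^ 2)
    (hC2 : ∀ (β : ℝ), 1 < β → ∀ (t A : ℝ) (K N : ℕ), 0 < N → 1 ≤ t → 0 < A →
      t * β ^ (-(K : ℤ)) ≤ A → (∀ m : ℤ, (K : ℤ) < m → ∃ n : ℤ, |t * β ^ m - n| ≤ 2 * A) →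
      ∫ ω, (F β t K N (signedPowerSum β⁻¹ ω) - q β t K) ^ 2 ∂coins ≤
        3 * ((2 * π * A / (β - 1)) ^ 2 + 16 * π ^ 2 * N * A ^ 2 + (4 * K + 1) / N))
    (hD : ∀ (β : ℝ), 1 < β → ∀ (t A : ℝ) (K N : ℕ), 0 < N → 1 ≤ t → 0 < A →
      t * β ^ (-(K : ℤ)) ≤ A → ∀ (R : ℝ), 0 ≤ R →
      ∫ x in (-R)..R, (F β t K N x) ^ 2 ≤ 2 * R / N + A / (π * (β - 1)))
    (hE1 : ∀ (μ : Measure ℝ) [IsProbabilityMeasure μ] (R : ℝ), 0 ≤ R →
      μ (Set.Icc (-R) R)ᶜ = 0 →
      (∀ κ : ℝ, 0 < κ → ∃ (f : ℝ → ℝ) (c : ℝ), Continuous f ∧ 0 < |c| ∧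
        (∃ C, ∀ x, |f x| ≤ C) ∧
        ∫ x, (f x - c) ^ 2 ∂μ ≤ κ * c ^ 2 ∧ ∫ x in (-R)..R, (f x) ^ 2 ≤ κ * c ^ 2) →
      μ.MutuallySingular (volume : Measure ℝ))
    (β : ℝ) (hβ : IsQuarticSalem β) :
    (bernoulliConvolution β⁻¹).MutuallySingular (volume : Measure ℝ) := by
  have h1 : 1 < β := hβ.1
  have hb1 : 0 < β - 1 := by linarith
  obtain ⟨hmeas, hbd⟩ := taskE2 β h1
  obtain ⟨θ, hθ⟩ := taskA1 β hβ
  have hpi : 0 < π := Real.pi_pos
  set R : ℝ := β / (β - 1) with hR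
  have hR0 : 0 ≤ R := by rw [hR]; positivity
  have hcoin : IsProbabilityMeasure coins := inferInstance
  haveI : IsProbabilityMeasure (bernoulliConvolution β⁻¹) :=
    Measure.isProbabilityMeasure_map hmeas.aemeasurable
  refine hE1 (bernoulliConvolution β⁻¹) R hR0 ?_ ?_
  · unfold bernoulliConvolution
    rw [Measure.map_apply hmeas measurableSet_Icc.compl]
    have : signedPowerSum β⁻¹ ⁻¹' (Set.Icc (-R) R)ᶜ = ∅ := by
      ext ω
      simp only [Set.mem_preimage, Set.mem_compl_iff, Set.mem_empty_iff_false, iff_false, not_not]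
      exact abs_le.1 (hbd ω)
    rw [this, measure_empty]
  · intro κ hκ
    set C1 : ℝ := 3 * ((2 * π / (β - 1)) ^ 2 + 32 * π ^ 2 + 4) with hC1
    set C2 : ℝ := 2 * R + 1 / (π * (β - 1)) with hC2'
    have hC1p : 0 < C1 := by rw [hC1]; positivity
    have hC2p : 0 < C2 := by rw [hC2']; positivity
    obtain ⟨t, A, K, ht, hA, hA1, hK, hw, hq, hmain⟩ :=
      hB β θ h1 hβ.2.1 (taskA2 β hβ) hθ (κ / (C1 + C2)) (by positivity)
    set N : ℕ := ⌈1 / A⌉₊ with hN
    have hNpos : 0 < N := Nat.ceil_pos.2 (by positivity)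
    have hNR : (0 : ℝ) < N := by exact_mod_cast hNpos
    have hN1 : 1 / A ≤ N := Nat.le_ceil _
    have hN2 : (N : ℝ) ≤ 2 / A := by
      have h2 : (N : ℝ) < 1 / A + 1 := Nat.ceil_lt_add_one (by positivity)
      have h3 : 1 ≤ 1 / A := by rw [le_div_iff₀ hA]; linarith
      have h4 : 2 / A = 1 / A + 1 / A := by ring
      linarith
    have hAN : 1 / (N : ℝ) ≤ A := by
      rw [div_le_iff₀ hNR]
      have := (div_le_iff₀ hA).1 hN1
      linarith
    have hNA : (N : ℝ) * A ≤ 2 := by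
      have := (le_div_iff₀ hA).1 hN2
      linarith
    have hKA : A ≤ ((K : ℝ) + 1) * A := by nlinarith [(Nat.cast_nonneg K : (0 : ℝ) ≤ K)]
    have hAA : A ^ 2 ≤ A := by nlinarith
    have hK1 : (0 : ℝ) ≤ K := Nat.cast_nonneg K
    have hfin : ∀ C : ℝ, 0 < C → C ≤ C1 + C2 → C * (((K : ℝ) + 1) * A) ≤ κ * (q β t K) ^ 2 := by
      intro C hC hCle
      have hq2 : 0 ≤ (q β t K) ^ 2 := sq_nonneg _
      calc C * (((K : ℝ) + 1) * A) ≤ (C1 + C2) * (((K : ℝ) + 1) * A) := by gcongr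
        _ ≤ (C1 + C2) * (κ / (C1 + C2) * (q β t K) ^ 2) := by gcongr
        _ = κ * (q β t K) ^ 2 := by field_simp
    refine ⟨F β t K N, q β t K, continuous_F β t K N, hq, ⟨_, abs_F_le β t K N⟩, ?_, ?_⟩
    · have hmf : AEStronglyMeasurable (fun x => (F β t K N x - q β t K) ^ 2)
          (bernoulliConvolution β⁻¹) :=
        (((continuous_F β t K N).sub continuous_const).pow 2).aestronglyMeasurable
      have e1 : ∫ x, (F β t K N x - q β t K) ^ 2 ∂(bernoulliConvolution β⁻¹)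
          = ∫ ω, (F β t K N (signedPowerSum β⁻¹ ω) - q β t K) ^ 2 ∂coins := by
        unfold bernoulliConvolution at hmf ⊢
        rw [integral_map hmeas.aemeasurable hmf]
      rw [e1]
      refine (hC2 β h1 t A K N hNpos ht hA hK hw).trans ?_
      refine le_trans ?_ (hfin C1 hC1p (by linarith))
      have t1 : (2 * π * A / (β - 1)) ^ 2 ≤ (2 * π / (β - 1)) ^ 2 * (((K : ℝ) + 1) * A) := by
        have : (2 * π * A / (β - 1)) ^ 2 = (2 * π / (β - 1)) ^ 2 * A ^ 2 := by ring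
        rw [this]
        exact mul_le_mul_of_nonneg_left (hAA.trans hKA) (by positivity)
      have t2 : 16 * π ^ 2 * N * A ^ 2 ≤ 32 * π ^ 2 * (((K : ℝ) + 1) * A) := by
        calc 16 * π ^ 2 * N * A ^ 2 = 16 * π ^ 2 * (N * A) * A := by ring
          _ ≤ 16 * π ^ 2 * 2 * A := by gcongr
          _ = 32 * π ^ 2 * A := by ring
          _ ≤ 32 * π ^ 2 * (((K : ℝ) + 1) * A) := by gcongr
      have t3 : (4 * (K : ℝ) + 1) / N ≤ 4 * (((K : ℝ) + 1) * A) := by
        calc (4 * (K : ℝ) + 1) / N = (4 * (K : ℝ) + 1) * (1 / N) := by ring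
          _ ≤ (4 * (K : ℝ) + 4) * A := by gcongr; norm_num
          _ = 4 * (((K : ℝ) + 1) * A) := by ring
      rw [hC1]
      nlinarith [t1, t2, t3]
    · refine (hD β h1 t A K N hNpos ht hA hK R hR0).trans ?_
      refine le_trans ?_ (hfin C2 hC2p (by linarith))
      have t1 : 2 * R / N ≤ 2 * R * (((K : ℝ) + 1) * A) := by
        calc 2 * R / N = 2 * R * (1 / N) := by ring
          _ ≤ 2 * R * (((K : ℝ) + 1) * A) := by
            apply mul_le_mul_of_nonneg_left (hAN.trans hKA) (by positivity)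
      have t2 : A / (π * (β - 1)) ≤ 1 / (π * (β - 1)) * (((K : ℝ) + 1) * A) := by
        calc A / (π * (β - 1)) = 1 / (π * (β - 1)) * A := by ring
          _ ≤ 1 / (π * (β - 1)) * (((K : ℝ) + 1) * A) := by gcongr
      rw [hC2']
      linarith [t1, t2]

end Crest.Agent.R104
end

-- ▼ part R104/B1
section

/-!
Task B, part 1: the states, the step inequality, positivity and far estimates.
-/

set_option autoImplicit false

namespace Crest.Agent.R104

open scoped Real

lemma bcc_add_int (x : ℝ) (n : ℤ) : cc (x + n) = cc x := by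
  unfold cc
  have : 2 * π * (x + n) = 2 * π * x + n * (2 * π) := by ring
  rw [this, Real.cos_add_int_mul_two_pi]


lemma bcc_neg (x : ℝ) : cc (-x) = cc x := by
  unfold cc
  rw [mul_neg, Real.cos_neg]

lemma babs_cc_le_one (x : ℝ) : |cc x| ≤ 1 := Real.abs_cos_le_one _

lemma bcc_sub_le (x y : ℝ) : |cc x - cc y| ≤ 2 * π * |x - y| := by
  unfold cc
  have h := Real.abs_cos_sub_cos_le (2 * π * x) (2 * π * y)
  have e : |2 * π * x - 2 * π * y| = 2 * π * |x - y| := by
    rw [← mul_sub, abs_mul, abs_of_pos Real.two_pi_pos]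
  rwa [e] at h

/-- If `x - y` is close to an integer then `|cc x|` is close to `|cc y|`. -/
lemma abs_cc_ge_sub (x y d : ℝ) (n : ℤ) (h : |x - y - n| ≤ d) : |cc y| - 2 * π * d ≤ |cc x| := by
  have h1 : cc x = cc (x - n) := by
    have := bcc_add_int (x - n) n
    rw [← this]; congr 1; ring
  have h2 := bcc_sub_le (x - n) y
  have h3 : |x - n - y| ≤ d := by
    have : x - n - y = x - y - n := by ring
    rwa [this]
  have h4 : |cc y| - |cc (x - n)| ≤ |cc y - cc (x - n)| := abs_sub_abs_le_abs_sub _ _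
  rw [abs_sub_comm] at h4
  have h5 : 2 * π * |x - n - y| ≤ 2 * π * d := by
    apply mul_le_mul_of_nonneg_left h3 Real.two_pi_pos.le
  rw [h1]
  linarith

lemma cc_ge (x : ℝ) : 1 - 2 * π ^ 2 * x ^ 2 ≤ |cc x| := by
  have h := Real.one_sub_sq_div_two_le_cos (x := 2 * π * x)
  have h2 : cc x ≤ |cc x| := le_abs_self _
  unfold cc at *
  nlinarith

/-- far version: `x` close to an integer. -/
lemma cc_ge_of_near (x d : ℝ) (n : ℤ) (hd : |x - n| ≤ d) : 1 - 2 * π ^ 2 * d ^ 2 ≤ |cc x| := by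
  have h1 : cc x = cc (x - n) := by
    have := bcc_add_int (x - n) n
    rw [← this]; congr 1; ring
  rw [h1]
  have h := cc_ge (x - n)
  have h2 : (x - n) ^ 2 ≤ d ^ 2 := by
    have := sq_abs (x - n)
    rw [← this]
    exact pow_le_pow_left₀ (abs_nonneg _) hd 2
  have hpi : 0 ≤ 2 * π ^ 2 := by positivity
  nlinarith [mul_le_mul_of_nonneg_left h2 hpi]

/-- A state. -/
structure St (β θ t a : ℝ) : Prop where
  int : IsIntegral ℤ t
  one_le : 1 ≤ t
  rel : ∃ s φ : ℝ, (s = 1 ∨ s = -1) ∧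
    ∀ m : ℤ, ∃ n : ℤ, t * β ^ m + s * (t * β ^ (-m)) + a * Real.cos (m * θ + φ) = n

lemma St.init {β θ : ℝ}
    (hrel : ∀ m : ℤ, ∃ n : ℤ, β ^ m + β ^ (-m) + 2 * Real.cos (m * θ) = n) : St β θ 1 2 where
  int := isIntegral_one
  one_le := le_rfl
  rel := by
    refine ⟨1, 0, Or.inl rfl, fun m => ?_⟩
    obtain ⟨n, hn⟩ := hrel m
    exact ⟨n, by simpa using hn⟩

lemma cos_diff (x y : ℝ) :
    Real.cos (x + y) - Real.cos (x - y) = 2 * Real.sin y * Real.cos (x + π / 2) := by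
  rw [Real.cos_add, Real.cos_sub, Real.cos_add_pi_div_two]
  ring

lemma St.z_step {θ a φ : ℝ} (m : ℤ) (l : ℕ) :
    a * Real.cos (((m + l : ℤ) : ℝ) * θ + φ) - a * Real.cos (((m - l : ℤ) : ℝ) * θ + φ) =
      (2 * a * Real.sin (l * θ)) * Real.cos (m * θ + (φ + π / 2)) := by
  have h := cos_diff (m * θ + φ) (l * θ)
  have e1 : ((m + l : ℤ) : ℝ) * θ + φ = m * θ + φ + l * θ := by push_cast; ring
  have e2 : ((m - l : ℤ) : ℝ) * θ + φ = m * θ + φ - l * θ := by push_cast; ring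
  rw [e1, e2, ← mul_sub, h]
  have e3 : (m : ℝ) * θ + φ + π / 2 = m * θ + (φ + π / 2) := by ring
  rw [e3]; ring

lemma x_step {β : ℝ} (h0 : β ≠ 0) (t : ℝ) (m : ℤ) (l : ℕ) :
    t * (β ^ (l : ℤ) - β ^ (-(l : ℤ))) * β ^ m = t * β ^ (m + l) - t * β ^ (m - l) := by
  rw [sub_eq_add_neg m, zpow_add₀ h0, zpow_add₀ h0]
  ring

/-- The step. -/
lemma St.step {β θ t a : ℝ} (h1 : 1 < β) (hint : IsIntegral ℤ β) (hint' : IsIntegral ℤ β⁻¹)
    (hs : St β θ t a) (l : ℕ) (hl : 2 ≤ β ^ (l : ℤ)) :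
    St β θ (t * (β ^ (l : ℤ) - β ^ (-(l : ℤ)))) (2 * a * Real.sin (l * θ)) where
  int := by
    refine hs.int.mul (IsIntegral.sub ?_ ?_)
    · rw [zpow_natCast]; exact hint.pow l
    · rw [zpow_neg, zpow_natCast, ← inv_pow]; exact hint'.pow l
  one_le := by
    have hb : 0 < β := by linarith
    have h2 : β ^ (-(l : ℤ)) ≤ 1 / 2 := by
      rw [zpow_neg, one_div]
      exact inv_anti₀ (by norm_num) hl
    have h3 : 1 ≤ β ^ (l : ℤ) - β ^ (-(l : ℤ)) := by linarith
    have := hs.one_le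
    nlinarith
  rel := by
    have h0 : β ≠ 0 := by linarith
    obtain ⟨s, φ, hs1, hr⟩ := hs.rel
    refine ⟨-s, φ + π / 2, ?_, fun m => ?_⟩
    · rcases hs1 with h | h
      · right; rw [h]
      · left; rw [h]; norm_num
    · obtain ⟨n1, hn1⟩ := hr (m + l)
      obtain ⟨n2, hn2⟩ := hr (m - l)
      refine ⟨n1 - n2, ?_⟩
      have e1 := x_step h0 t m l
      have e2 := x_step h0 t (-m) l
      have e3 := St.z_step (θ := θ) (a := a) (φ := φ) m l
      rw [e1, e2, ← e3]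
      have e4 : -m + (l : ℤ) = -(m - l) := by ring
      have e5 : -m - (l : ℤ) = -(m + l) := by ring
      rw [e4, e5]
      push_cast at hn1 hn2 ⊢
      rw [← hn1, ← hn2]
      ring

/-- positivity -/
lemma St.pos {β θ t a : ℝ} (hint : IsIntegral ℤ β) (hint' : IsIntegral ℤ β⁻¹)
    (hs : St β θ t a) (m : ℤ) : 0 < |cc (t * β ^ m)| := by
  rw [abs_pos]
  intro h
  unfold cc at h
  rw [Real.cos_eq_zero_iff] at h
  obtain ⟨k, hk⟩ := h
  have hpi := Real.pi_pos
  have h2 : t * β ^ m = (((2 * k + 1 : ℤ) : ℚ) / 4 : ℚ) := by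
    push_cast
    have : 2 * π * (t * β ^ m) = 2 * π * ((2 * k + 1) / 4) := by
      rw [hk]; ring
    exact mul_left_cancel₀ (by positivity) this
  have h3 : IsIntegral ℤ (t * β ^ m) := by
    refine hs.int.mul ?_
    rcases Int.eq_nat_or_neg m with ⟨n, rfl | rfl⟩
    · rw [zpow_natCast]; exact hint.pow n
    · rw [zpow_neg, zpow_natCast, ← inv_pow]; exact hint'.pow n
  rw [h2] at h3
  have h4 : IsIntegral ℤ (((2 * k + 1 : ℤ) : ℚ) / 4 : ℚ) := by
    have : ((((2 * k + 1 : ℤ) : ℚ) / 4 : ℚ) : ℝ) = algebraMap ℚ ℝ (((2 * k + 1 : ℤ) : ℚ) / 4 : ℚ) := rfl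
    rw [this] at h3
    exact (isIntegral_algebraMap_iff (algebraMap ℚ ℝ).injective).1 h3
  obtain ⟨n, hn⟩ := IsIntegrallyClosed.isIntegral_iff.1 h4
  have h5 : (n : ℚ) = ((2 * k + 1 : ℤ) : ℚ) / 4 := by simpa using hn
  have h6 : (4 * n : ℚ) = ((2 * k + 1 : ℤ) : ℚ) := by rw [h5]; ring
  have h7 : 4 * n = 2 * k + 1 := by exact_mod_cast h6
  omega

/-- far estimate -/
lemma St.far {β θ t a : ℝ} (h1 : 1 < β) (hs : St β θ t a) (m : ℤ) :
    ∃ n : ℤ, |t * β ^ m - n| ≤ t * β ^ (-|m|) + |a| := by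
  have hb : 0 < β := by linarith
  have ht : 0 < t := by linarith [hs.one_le]
  rcases le_total m 0 with hm | hm
  · refine ⟨0, ?_⟩
    rw [abs_of_nonpos hm]
    have : 0 ≤ t * β ^ m := by positivity
    rw [neg_neg, Int.cast_zero, sub_zero, abs_of_nonneg this]
    linarith [abs_nonneg a]
  · obtain ⟨s, φ, hs1, hr⟩ := hs.rel
    obtain ⟨n, hn⟩ := hr m
    refine ⟨n, ?_⟩
    rw [abs_of_nonneg hm]
    have e : t * β ^ m - n = -(s * (t * β ^ (-m))) - a * Real.cos (m * θ + φ) := by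
      rw [← hn]; ring
    rw [e]
    have hsabs : |s| = 1 := by rcases hs1 with h | h <;> simp [h]
    calc |-(s * (t * β ^ (-m))) - a * Real.cos (m * θ + φ)|
        ≤ |-(s * (t * β ^ (-m)))| + |a * Real.cos (m * θ + φ)| := abs_sub _ _
      _ ≤ t * β ^ (-m) + |a| := by
        rw [abs_neg, abs_mul s, hsabs, one_mul, abs_mul a]
        have h3 : 0 ≤ t * β ^ (-m) := by positivity
        rw [abs_of_nonneg h3]
        have h4 := Real.abs_cos_le_one (m * θ + φ)
        have h5 := abs_nonneg a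
        nlinarith

/-- step inequality -/
lemma St.step_ge {β θ t a : ℝ} (h1 : 1 < β) (hs : St β θ t a) (l : ℕ) (m : ℤ) :
    |cc (t * β ^ ((l : ℤ) - |m|))| - 2 * π * (t * β ^ (-(l : ℤ)) + |2 * a * Real.sin (l * θ)|) ≤
      |cc (t * (β ^ (l : ℤ) - β ^ (-(l : ℤ))) * β ^ m)| := by
  have h0 : β ≠ 0 := by linarith
  have hb : 0 < β := by linarith
  have ht : 0 < t := by linarith [hs.one_le]
  rw [x_step h0 t m l]
  rcases le_or_gt 0 m with hm | hm
  · obtain ⟨s, φ, hs1, hr⟩ := hs.rel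
    obtain ⟨n1, hn1⟩ := hr (m + l)
    obtain ⟨n2, hn2⟩ := hr (m - l)
    have hsabs : |s| = 1 := by rcases hs1 with h | h <;> simp [h]
    have e3 := St.z_step (θ := θ) (a := a) (φ := φ) m l
    -- |cc (s * x)| = |cc x|
    have hcs : |cc (s * (t * β ^ ((l : ℤ) - |m|)))| = |cc (t * β ^ ((l : ℤ) - |m|))| := by
      rcases hs1 with h | h
      · rw [h, one_mul]
      · rw [h, neg_one_mul, bcc_neg]
    rw [← hcs]
    apply abs_cc_ge_sub _ _ _ (n1 - n2)
    rw [abs_of_nonneg hm]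
    have e4 : -(m - (l : ℤ)) = l - m := by ring
    rw [e4] at hn2
    have e5 : t * β ^ (m + (l : ℤ)) - t * β ^ (m - (l : ℤ)) - s * (t * β ^ ((l : ℤ) - m)) -
        ((n1 - n2 : ℤ) : ℝ) = -(s * (t * β ^ (-(m + (l : ℤ))))) -
        (2 * a * Real.sin (l * θ)) * Real.cos (m * θ + (φ + π / 2)) := by
      rw [← e3]
      push_cast at hn1 hn2 ⊢
      rw [← hn1, ← hn2]
      ring
    rw [e5]
    have hle : β ^ (-(m + (l : ℤ))) ≤ β ^ (-(l : ℤ)) := by
      apply zpow_le_zpow_right₀ h1.le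
      omega
    calc |-(s * (t * β ^ (-(m + (l : ℤ))))) -
        (2 * a * Real.sin (l * θ)) * Real.cos (m * θ + (φ + π / 2))|
        ≤ |-(s * (t * β ^ (-(m + (l : ℤ)))))| +
          |(2 * a * Real.sin (l * θ)) * Real.cos (m * θ + (φ + π / 2))| := abs_sub _ _
      _ ≤ t * β ^ (-(l : ℤ)) + |2 * a * Real.sin (l * θ)| := by
        rw [abs_neg, abs_mul, hsabs, one_mul, abs_mul (2 * a * Real.sin (l * θ))]
        have h3 : 0 ≤ t * β ^ (-(m + (l : ℤ))) := by positivity
        rw [abs_of_nonneg h3]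
        have h4 := Real.abs_cos_le_one (m * θ + (φ + π / 2))
        have h5 := abs_nonneg (2 * a * Real.sin (l * θ))
        have h6 := mul_le_mul_of_nonneg_left hle ht.le
        nlinarith
  · have h3 : |t * β ^ (m + (l : ℤ)) - t * β ^ (m - (l : ℤ)) - t * β ^ ((l : ℤ) - |m|) -
        ((0 : ℤ) : ℝ)| ≤ t * β ^ (-(l : ℤ)) + |2 * a * Real.sin (l * θ)| := by
      rw [abs_of_neg hm]
      have e : (l : ℤ) - -m = m + l := by ring
      rw [e, Int.cast_zero, sub_zero]
      have e2 : t * β ^ (m + (l : ℤ)) - t * β ^ (m - (l : ℤ)) - t * β ^ (m + (l : ℤ)) =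
        -(t * β ^ (m - (l : ℤ))) := by ring
      rw [e2, abs_neg]
      have h3 : 0 ≤ t * β ^ (m - (l : ℤ)) := by positivity
      rw [abs_of_nonneg h3]
      have hle : β ^ (m - (l : ℤ)) ≤ β ^ (-(l : ℤ)) := by
        apply zpow_le_zpow_right₀ h1.le
        omega
      have h6 := mul_le_mul_of_nonneg_left hle ht.le
      have h5 := abs_nonneg (2 * a * Real.sin (l * θ))
      linarith
    exact abs_cc_ge_sub _ _ _ 0 h3

end Crest.Agent.R104
end

-- ▼ part R104/B2
section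

/-!
Task B, part 2: Dirichlet, costs and their sums.
-/

set_option autoImplicit false

namespace Crest.Agent.R104

open scoped Real

lemma abs_sin_nat_mul_le (n : ℕ) (x : ℝ) : |Real.sin (n * x)| ≤ n * |Real.sin x| := by
  induction n with
  | zero => simp
  | succ n ih =>
    have e : ((n + 1 : ℕ) : ℝ) * x = n * x + x := by push_cast; ring
    rw [e, Real.sin_add]
    have h1 := Real.abs_cos_le_one x
    have h2 := Real.abs_cos_le_one (n * x)
    calc |Real.sin (n * x) * Real.cos x + Real.cos (n * x) * Real.sin x|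
        ≤ |Real.sin (n * x) * Real.cos x| + |Real.cos (n * x) * Real.sin x| := abs_add_le _ _
      _ ≤ |Real.sin (n * x)| + |Real.sin x| := by
        rw [abs_mul, abs_mul]
        have h3 := abs_nonneg (Real.sin (n * x))
        have h4 := abs_nonneg (Real.sin x)
        nlinarith
      _ ≤ n * |Real.sin x| + |Real.sin x| := by linarith
      _ = ((n + 1 : ℕ) : ℝ) * |Real.sin x| := by push_cast; ring

lemma abs_sin_le_of_near (x : ℝ) (n : ℤ) : |Real.sin (π * x)| ≤ π * |x - n| := by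
  have h1 : |Real.sin (π * x)| = |Real.sin (π * x - n * π)| := by
    rw [Real.sin_sub_int_mul_pi, abs_mul]
    have : |((-1 : ℝ)) ^ n| = 1 := by
      rw [abs_zpow]; simp
    rw [this, one_mul]
  rw [h1]
  have h2 : π * x - n * π = π * (x - n) := by ring
  rw [h2]
  calc |Real.sin (π * (x - n))| ≤ |π * (x - n)| := Real.abs_sin_le_abs
    _ = π * |x - n| := by rw [abs_mul, abs_of_pos Real.pi_pos]

lemma dirichlet_sin (θ e : ℝ) (he : 0 < e) :
    ∃ j : ℕ, 1 ≤ j ∧ |2 * Real.sin (j * θ)| ≤ e ∧ (j : ℝ) ≤ 2 * π / e + 1 := by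
  have hpi := Real.pi_pos
  have hpos : 0 < 2 * π / e := by positivity
  have hn : 0 < ⌈2 * π / e⌉₊ := Nat.ceil_pos.2 hpos
  obtain ⟨k, hk0, hk1, hk⟩ := Real.exists_nat_abs_mul_sub_round_le (θ / π) hn
  refine ⟨k, hk0, ?_, ?_⟩
  · have h1 := abs_sin_le_of_near (k * (θ / π)) (round (k * (θ / π)))
    have h2 : π * (k * (θ / π)) = k * θ := by field_simp
    rw [h2] at h1
    have h3 : 2 * π / e ≤ (⌈2 * π / e⌉₊ : ℝ) := Nat.le_ceil _
    have h4 : (1 : ℝ) / ((⌈2 * π / e⌉₊ : ℝ) + 1) ≤ e / (2 * π) := by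
      rw [div_le_div_iff₀ (by positivity) (by positivity)]
      have h5 : 2 * π ≤ e * (⌈2 * π / e⌉₊ : ℝ) := by
        rw [div_le_iff₀ he] at h3
        linarith
      nlinarith
    rw [abs_mul, abs_two]
    calc 2 * |Real.sin (k * θ)| ≤ 2 * (π * |k * (θ / π) - round (k * (θ / π))|) := by linarith
      _ ≤ 2 * (π * (e / (2 * π))) := by
        have := hk.trans h4
        have h6 := mul_le_mul_of_nonneg_left this hpi.le
        linarith
      _ = e := by field_simp
  · have h3 : (⌈2 * π / e⌉₊ : ℝ) < 2 * π / e + 1 := Nat.ceil_lt_add_one hpos.le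
    have h4 : (k : ℝ) ≤ (⌈2 * π / e⌉₊ : ℝ) := by exact_mod_cast hk1
    linarith

lemma dirichlet_sin_min (θ e : ℝ) (he : 0 < e) :
    ∃ j : ℕ, 1 ≤ j ∧ |2 * Real.sin (j * θ)| ≤ e ∧ (j : ℝ) ≤ 2 * π / e + 1 ∧
      ∀ i : ℕ, 1 ≤ i → i < j → e < |2 * Real.sin (i * θ)| := by
  classical
  obtain ⟨j0, h1, h2, h3⟩ := dirichlet_sin θ e he
  have hex : ∃ j : ℕ, 1 ≤ j ∧ |2 * Real.sin (j * θ)| ≤ e := ⟨j0, h1, h2⟩
  refine ⟨Nat.find hex, (Nat.find_spec hex).1, (Nat.find_spec hex).2, ?_, ?_⟩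
  · have : Nat.find hex ≤ j0 := Nat.find_min' hex ⟨h1, h2⟩
    have h4 : (Nat.find hex : ℝ) ≤ j0 := by exact_mod_cast this
    linarith
  · intro i hi1 hi2
    have := Nat.find_min hex hi2
    push Not at this
    exact this hi1

/-- cost -/
noncomputable def cost (β t : ℝ) (m : ℤ) : ℝ := -Real.log |cc (t * β ^ m)|

lemma cost_nonneg (β t : ℝ) (m : ℤ) : 0 ≤ cost β t m := by
  unfold cost
  have := Real.log_nonpos (abs_nonneg (cc (t * β ^ m))) (babs_cc_le_one _)
  linarith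

lemma neg_log_one_sub_le (u : ℝ) (h0 : 0 ≤ u) (h1 : u ≤ 1 / 2) : -Real.log (1 - u) ≤ 2 * u := by
  have hpos : 0 < 1 - u := by linarith
  have h := Real.one_sub_inv_le_log_of_pos hpos
  have h2 : (1 - u)⁻¹ ≤ 1 + 2 * u := by
    rw [inv_le_comm₀ hpos (by positivity), inv_le_iff_one_le_mul₀ (by positivity)]
    nlinarith
  linarith

lemma cost_far {β t : ℝ} {m : ℤ} {n : ℤ} {d : ℝ} (h : |t * β ^ m - n| ≤ d)
    (hd : 2 * π ^ 2 * d ^ 2 ≤ 1 / 2) : cost β t m ≤ 4 * π ^ 2 * d ^ 2 := by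
  have h1 := cc_ge_of_near _ d n h
  have h2 := neg_log_one_sub_le (2 * π ^ 2 * d ^ 2) (by positivity) hd
  unfold cost
  have h3 : Real.log (1 - 2 * π ^ 2 * d ^ 2) ≤ Real.log |cc (t * β ^ m)| :=
    Real.log_le_log (by linarith) h1
  linarith

lemma cost_step {β t t' f η : ℝ} {m j : ℤ} (hf : 0 < f) (hG : f ≤ |cc (t * β ^ j)|)
    (hη0 : 0 ≤ η) (hη : η ≤ f / 2) (h : |cc (t * β ^ j)| - η ≤ |cc (t' * β ^ m)|) :
    cost β t' m ≤ cost β t j + 2 * (η / f) := by
  unfold cost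
  have hGpos : 0 < |cc (t * β ^ j)| := lt_of_lt_of_le hf hG
  have hu : η / f ≤ 1 / 2 := by rw [div_le_iff₀ hf]; linarith
  have hu0 : 0 ≤ η / f := by positivity
  have h1 : |cc (t * β ^ j)| * (1 - η / f) ≤ |cc (t' * β ^ m)| := by
    have h2 : η ≤ |cc (t * β ^ j)| * (η / f) := by
      rw [← mul_div_assoc, le_div_iff₀ hf]
      nlinarith
    nlinarith
  have h3 : Real.log (|cc (t * β ^ j)| * (1 - η / f)) ≤ Real.log |cc (t' * β ^ m)| :=
    Real.log_le_log (by apply mul_pos hGpos; linarith) h1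
  rw [Real.log_mul hGpos.ne' (by linarith)] at h3
  have h4 := neg_log_one_sub_le (η / f) hu0 hu
  linarith

lemma sum_inj_le (s T : Finset ℤ) (g : ℤ → ℤ) (h : ℤ → ℝ) (h0 : ∀ j, 0 ≤ h j)
    (hg : ∀ x ∈ s, g x ∈ T) (hinj : Set.InjOn g s) :
    ∑ m ∈ s, h (g m) ≤ ∑ j ∈ T, h j := by
  rw [← Finset.sum_image (f := h) hinj]
  apply Finset.sum_le_sum_of_subset_of_nonneg
  · intro x hx
    rw [Finset.mem_image] at hx
    obtain ⟨y, hy, rfl⟩ := hx
    exact hg y hy
  · intro i _ _; exact h0 i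

lemma sum_reflect_le (l K : ℕ) (hl : l ≤ K) (h : ℤ → ℝ) (h0 : ∀ j, 0 ≤ h j) :
    ∑ m ∈ Finset.Icc (-(K : ℤ)) K, h (l - |m|) ≤ 2 * ∑ j ∈ Finset.Icc (-(K : ℤ)) K, h j := by
  have hsplit : Finset.Icc (-(K : ℤ)) K = Finset.Icc (0 : ℤ) K ∪ Finset.Icc (-(K : ℤ)) (-1) := by
    ext x; simp only [Finset.mem_Icc, Finset.mem_union]; omega
  have hdisj : Disjoint (Finset.Icc (0 : ℤ) K) (Finset.Icc (-(K : ℤ)) (-1)) := by
    rw [Finset.disjoint_left]; intro x hx hy
    simp only [Finset.mem_Icc] at hx hy; omega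
  have e1 : ∑ m ∈ Finset.Icc (0 : ℤ) K, h (l - |m|) = ∑ m ∈ Finset.Icc (0 : ℤ) K, h (l - m) := by
    apply Finset.sum_congr rfl
    intro x hx
    rw [Finset.mem_Icc] at hx
    rw [abs_of_nonneg hx.1]
  have e2 : ∑ m ∈ Finset.Icc (-(K : ℤ)) (-1), h (l - |m|) =
      ∑ m ∈ Finset.Icc (-(K : ℤ)) (-1), h (l + m) := by
    apply Finset.sum_congr rfl
    intro x hx
    rw [Finset.mem_Icc] at hx
    rw [abs_of_nonpos (by omega), sub_neg_eq_add]
  have h1 : ∑ m ∈ Finset.Icc (0 : ℤ) K, h (l - m) ≤ ∑ j ∈ Finset.Icc (-(K : ℤ)) K, h j := by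
    apply sum_inj_le _ _ (fun m => (l : ℤ) - m) h h0
    · intro x hx; simp only [Finset.mem_Icc] at hx ⊢; omega
    · intro x _ y _ hxy; simp only at hxy; omega
  have h2 : ∑ m ∈ Finset.Icc (-(K : ℤ)) (-1), h (l + m) ≤ ∑ j ∈ Finset.Icc (-(K : ℤ)) K, h j := by
    apply sum_inj_le _ _ (fun m => (l : ℤ) + m) h h0
    · intro x hx; simp only [Finset.mem_Icc] at hx ⊢; omega
    · intro x _ y _ hxy; simp only at hxy; omega
  have h3 : ∑ m ∈ Finset.Icc (-(K : ℤ)) K, h (l - |m|) =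
      ∑ m ∈ Finset.Icc (0 : ℤ) K, h (l - |m|) + ∑ m ∈ Finset.Icc (-(K : ℤ)) (-1), h (l - |m|) := by
    conv_lhs => rw [hsplit]
    rw [Finset.sum_union hdisj]
  rw [h3, e1, e2]
  linarith

/-- the far part of the cost sum -/
lemma sum_far_le {K K' : ℕ} (hK : K ≤ K') (h : ℤ → ℝ) (c : ℝ) (hc : 0 ≤ c)
    (hfar : ∀ j : ℤ, (K : ℤ) < |j| → h j ≤ c) :
    ∑ j ∈ Finset.Icc (-(K' : ℤ)) K', h j ≤
      ∑ j ∈ Finset.Icc (-(K : ℤ)) K, h j + (2 * K' + 1) * c := by
  have hsub : Finset.Icc (-(K : ℤ)) K ⊆ Finset.Icc (-(K' : ℤ)) K' := by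
    intro x hx; simp only [Finset.mem_Icc] at hx ⊢; omega
  rw [← Finset.sum_sdiff hsub]
  have h1 : ∑ j ∈ Finset.Icc (-(K' : ℤ)) K' \ Finset.Icc (-(K : ℤ)) K, h j ≤
      (2 * K' + 1) * c := by
    calc ∑ j ∈ Finset.Icc (-(K' : ℤ)) K' \ Finset.Icc (-(K : ℤ)) K, h j
        ≤ (Finset.Icc (-(K' : ℤ)) K' \ Finset.Icc (-(K : ℤ)) K).card • c := by
          apply Finset.sum_le_card_nsmul
          intro x hx
          apply hfar
          simp only [Finset.mem_sdiff, Finset.mem_Icc] at hx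
          rcases le_or_gt 0 x with h | h
          · rw [abs_of_nonneg h]; omega
          · rw [abs_of_neg h]; omega
      _ ≤ (2 * K' + 1) * c := by
          rw [nsmul_eq_mul]
          apply mul_le_mul_of_nonneg_right _ hc
          have : (Finset.Icc (-(K' : ℤ)) K' \ Finset.Icc (-(K : ℤ)) K).card ≤
              (Finset.Icc (-(K' : ℤ)) K').card := Finset.card_le_card Finset.sdiff_subset
          have h2 : (Finset.Icc (-(K' : ℤ)) K').card = 2 * K' + 1 := by
            rw [Int.card_Icc]; omega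
          rw [h2] at this
          exact_mod_cast this
  linarith

end Crest.Agent.R104
end

-- ▼ part R104/B3
section

/-!
Task B, part 3: the main inductive step.
-/

set_option autoImplicit false

namespace Crest.Agent.R104

open scoped Real

/-- All largeness conditions on `S`. -/
structure Big (β f S : ℝ) : Prop where
  pos : 1 ≤ S
  c1 : 5 / 2 * S ≤ Real.exp (S / 10) * Real.log β / 2
  c2 : 4 * π + 1 ≤ Real.exp (3 / 2 * S)
  c4 : 8 * Real.exp (S / 10) ≤ Real.exp (S / 4)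
  c5 : Real.exp (6 / 5 * S) + 64 * Real.exp (17 / 10 * S) + (3 / 2 * S / Real.log β + 1) ≤
        Real.exp (9 / 5 * S)
  c6 : 8 * π ^ 2 * Real.exp (-(2 * S)) ≤ 1 / 2
  c7 : 2 * ((2 * Real.exp (9 / 5 * S) + 1) * (16 * π ^ 2 * Real.exp (-(2 * S)))) +
        2 * ((2 * Real.exp (9 / 5 * S) + 1) * (2 * (4 * π * Real.exp (-(5 / 2 * S)) / f))) ≤ 1
  c9 : 4 * π * Real.exp (-(5 / 2 * S)) ≤ f / 2

/-- Inductive invariant. -/
def Inv (β θ f c S R : ℝ) : Prop :=
  ∃ (t a : ℝ) (j r K : ℕ), St β θ t a ∧ |a| ≤ Real.exp (-S) ∧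
    (∀ m : ℤ, f + Real.exp (-S) ≤ |cc (t * β ^ m)|) ∧
    t ≤ β ^ (2 * (r * j)) ∧ 4 * (r : ℝ) ≤ Real.exp (S / 10) ∧
    (∀ i : ℕ, 1 ≤ i → i < j → Real.exp (-(3 / 2 * S)) < |2 * Real.sin (i * θ)|) ∧
    t * β ^ (-(K : ℤ)) ≤ Real.exp (-S) ∧ (K : ℝ) ≤ Real.exp (c * S) ∧
    ∑ m ∈ Finset.Icc (-(K : ℤ)) K, cost β t m ≤ R

lemma Inv.step {β θ f S R : ℝ} (h1 : 1 < β) (hint : IsIntegral ℤ β) (hint' : IsIntegral ℤ β⁻¹)
    (hf : 0 < f) (hS : Big β f S) (h : Inv β θ f (6 / 5) S R) :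
    Inv β θ f (18 / 25) (5 / 2 * S) (2 * R + 1) := by
  obtain ⟨t, a, j0, r0, K, hs, ha, hG, htβ, hr0, hj0, htK, hKS, hR⟩ := h
  have hβpos : 0 < β := by linarith
  have hpi := Real.pi_pos
  have hlog : 0 < Real.log β := Real.log_pos h1
  have hS1 := hS.pos
  have ht1 := hs.one_le
  have htpos : 0 < t := by linarith
  -- choose r
  set r : ℕ := ⌈Real.exp (S / 10)⌉₊ with hr
  have hr_ge : Real.exp (S / 10) ≤ r := Nat.le_ceil _
  have hE1 : 1 ≤ Real.exp (S / 10) := Real.one_le_exp (by linarith)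
  have hr_le : (r : ℝ) ≤ 2 * Real.exp (S / 10) := by
    have := Nat.ceil_lt_add_one (Real.exp_pos (S / 10)).le
    have h2 : (r : ℝ) < Real.exp (S / 10) + 1 := this
    linarith
  have hr1 : (1 : ℝ) ≤ r := hE1.trans hr_ge
  have hrpos : (0 : ℝ) < r := by linarith
  have hrN : 1 ≤ r := by exact_mod_cast hr1
  clear_value r
  set e : ℝ := Real.exp (-(3 / 2 * S)) / r with he
  clear_value e
  have hepos : 0 < e := by rw [he]; positivity
  obtain ⟨j, hj1, hje, hjle, hjmin⟩ := dirichlet_sin_min θ e hepos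
  have he_le : e ≤ Real.exp (-(3 / 2 * S)) := by
    rw [he]; exact div_le_self (Real.exp_pos _).le hr1
  -- j ≥ j0
  have hjj0 : j0 ≤ j := by
    by_contra hcon
    push Not at hcon
    have := hj0 j hj1 hcon
    linarith
  set l : ℕ := r * j with hl
  have hlr : r ≤ l := Nat.le_mul_of_pos_right r hj1
  clear_value l
  have hlr' : (r : ℝ) ≤ l := by exact_mod_cast hlr
  -- 4 r0 j0 ≤ l
  have hl4 : 4 * (r0 * j0) ≤ l := by
    have h4 : 4 * (r0 : ℝ) ≤ r := hr0.trans hr_ge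
    have h5 : 4 * r0 ≤ r := by exact_mod_cast h4
    calc 4 * (r0 * j0) = (4 * r0) * j0 := by ring
      _ ≤ r * j := Nat.mul_le_mul h5 hjj0
      _ = l := hl.symm
  -- β^l big: `β ^ (-l/2) ≤ exp (-5/2 S)`
  have hlS : 5 / 2 * S ≤ l * Real.log β / 2 := by
    have h5 := hS.c1
    have h6 : Real.exp (S / 10) * Real.log β / 2 ≤ l * Real.log β / 2 := by
      have : Real.exp (S / 10) ≤ l := hr_ge.trans hlr'
      have := mul_le_mul_of_nonneg_right this hlog.le
      linarith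
    linarith
  have hpow_exp : ∀ n : ℕ, β ^ n = Real.exp (n * Real.log β) := by
    intro n
    rw [mul_comm, Real.exp_mul, Real.exp_log hβpos, Real.rpow_natCast]
  have hzpow_exp : ∀ n : ℤ, β ^ n = Real.exp (n * Real.log β) := by
    intro n
    rw [mul_comm, Real.exp_mul, Real.exp_log hβpos, Real.rpow_intCast]
  have hη1 : t * β ^ (-(l : ℤ)) ≤ Real.exp (-(5 / 2 * S)) := by
    calc t * β ^ (-(l : ℤ)) ≤ β ^ (2 * (r0 * j0)) * β ^ (-(l : ℤ)) := by
          apply mul_le_mul_of_nonneg_right htβ (by positivity)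
      _ = Real.exp ((2 * (r0 * j0) : ℕ) * Real.log β + ((-(l : ℤ) : ℤ) : ℝ) * Real.log β) := by
          rw [hpow_exp, hzpow_exp, ← Real.exp_add]
      _ ≤ Real.exp (-(5 / 2 * S)) := by
          apply Real.exp_le_exp.2
          have h7 : ((2 * (r0 * j0) : ℕ) : ℝ) ≤ l / 2 := by
            have : ((4 * (r0 * j0) : ℕ) : ℝ) ≤ l := by exact_mod_cast hl4
            push_cast at this ⊢
            linarith
          push_cast at h7 ⊢
          have h8 := mul_le_mul_of_nonneg_right h7 hlog.le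
          nlinarith
  -- new a
  have ha' : |2 * a * Real.sin (l * θ)| ≤ Real.exp (-(5 / 2 * S)) := by
    have h3 : |2 * Real.sin (l * θ)| ≤ Real.exp (-(3 / 2 * S)) := by
      have h4 := abs_sin_nat_mul_le r (j * θ)
      have e1 : (r : ℝ) * (j * θ) = l * θ := by rw [hl]; push_cast; ring
      rw [e1] at h4
      rw [abs_mul, abs_two] at hje ⊢
      calc 2 * |Real.sin (l * θ)| ≤ r * (2 * |Real.sin (j * θ)|) := by linarith
        _ ≤ r * e := mul_le_mul_of_nonneg_left hje hrpos.le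
        _ = Real.exp (-(3 / 2 * S)) := by rw [he]; field_simp
    calc |2 * a * Real.sin (l * θ)| = |a| * |2 * Real.sin (l * θ)| := by
          rw [← abs_mul]; congr 1; ring
      _ ≤ Real.exp (-S) * Real.exp (-(3 / 2 * S)) :=
          mul_le_mul ha h3 (abs_nonneg _) (Real.exp_pos _).le
      _ = Real.exp (-(5 / 2 * S)) := by rw [← Real.exp_add]; congr 1; ring
  -- 2 ≤ β ^ l
  have hl2 : 2 ≤ β ^ (l : ℤ) := by
    rw [hzpow_exp]
    have h3 : Real.exp 1 ≤ Real.exp (((l : ℤ) : ℝ) * Real.log β) := by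
      apply Real.exp_le_exp.2
      push_cast
      linarith
    have h4 := Real.add_one_le_exp (1 : ℝ)
    linarith
  set t' : ℝ := t * (β ^ (l : ℤ) - β ^ (-(l : ℤ))) with ht'
  have hs' : St β θ t' (2 * a * Real.sin (l * θ)) := hs.step h1 hint hint' l hl2
  set η : ℝ := 2 * π * (t * β ^ (-(l : ℤ)) + |2 * a * Real.sin (l * θ)|) with hη
  have hη0 : 0 ≤ η := by positivity
  clear_value t' η
  have hηle : η ≤ 4 * π * Real.exp (-(5 / 2 * S)) := by
    rw [hη]
    have := add_le_add hη1 ha'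
    have h3 := mul_le_mul_of_nonneg_left this Real.two_pi_pos.le
    linarith
  have hηf : η ≤ f / 2 := hηle.trans hS.c9
  have hstep : ∀ m : ℤ, |cc (t * β ^ ((l : ℤ) - |m|))| - η ≤ |cc (t' * β ^ m)| := by
    intro m
    have := hs.step_ge h1 l m
    rwa [← ht', ← hη] at this
  -- t' ≤ t β^l
  have ht'le : t' ≤ t * β ^ l := by
    rw [ht', zpow_natCast]
    apply mul_le_mul_of_nonneg_left _ htpos.le
    have : 0 ≤ β ^ (-(l : ℤ)) := by positivity
    linarith
  -- K'
  set M : ℕ := ⌈3 / 2 * S / Real.log β⌉₊ with hM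
  have hM_ge : 3 / 2 * S / Real.log β ≤ M := Nat.le_ceil _
  have hM_le : (M : ℝ) ≤ 3 / 2 * S / Real.log β + 1 :=
    (Nat.ceil_lt_add_one (by positivity)).le
  set K' : ℕ := K + l + M with hK'
  clear_value K' M
  have hl_le : (l : ℝ) ≤ 64 * Real.exp (17 / 10 * S) := by
    have h3 : (l : ℝ) = r * j := by rw [hl]; push_cast; ring
    have h4 : 2 * π / e = 2 * π * r * Real.exp (3 / 2 * S) := by
      rw [he, Real.exp_neg]; field_simp
    rw [h4] at hjle
    have hE3 : 1 ≤ Real.exp (3 / 2 * S) := Real.one_le_exp (by linarith)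
    have h5 : (j : ℝ) ≤ 8 * r * Real.exp (3 / 2 * S) := by
      have h6 : 1 ≤ r * Real.exp (3 / 2 * S) := by nlinarith
      have h7 : π ≤ 3.15 := Real.pi_lt_d2.le
      have h8 : 2 * π * r * Real.exp (3 / 2 * S) ≤ 6.3 * (r * Real.exp (3 / 2 * S)) := by
        have : 0 < r * Real.exp (3 / 2 * S) := by positivity
        nlinarith
      nlinarith
    rw [h3]
    calc (r : ℝ) * j ≤ r * (8 * r * Real.exp (3 / 2 * S)) :=
          mul_le_mul_of_nonneg_left h5 hrpos.le
      _ = 8 * (r * r) * Real.exp (3 / 2 * S) := by ring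
      _ ≤ 8 * ((2 * Real.exp (S / 10)) * (2 * Real.exp (S / 10))) * Real.exp (3 / 2 * S) := by
          have h9 : (r : ℝ) * r ≤ (2 * Real.exp (S / 10)) * (2 * Real.exp (S / 10)) :=
            mul_le_mul hr_le hr_le hrpos.le (by positivity)
          have := mul_le_mul_of_nonneg_right h9 (Real.exp_pos (3 / 2 * S)).le
          nlinarith
      _ = 32 * Real.exp (17 / 10 * S) := by
          have : Real.exp (17 / 10 * S) = Real.exp (S / 10) * Real.exp (S / 10) *
              Real.exp (3 / 2 * S) := by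
            rw [← Real.exp_add, ← Real.exp_add]; congr 1; ring
          rw [this]; ring
      _ ≤ 64 * Real.exp (17 / 10 * S) := by
          have := Real.exp_pos (17 / 10 * S)
          linarith
  have hK'_le : (K' : ℝ) ≤ Real.exp (9 / 5 * S) := by
    rw [hK']; push_cast
    have := hS.c5
    linarith
  have htK' : t' * β ^ (-(K' : ℤ)) ≤ Real.exp (-(5 / 2 * S)) := by
    have hb : β ^ (-(M : ℤ)) ≤ Real.exp (-(3 / 2 * S)) := by
      rw [hzpow_exp]
      apply Real.exp_le_exp.2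
      push_cast
      rw [div_le_iff₀ hlog] at hM_ge
      linarith
    have e1 : t * β ^ l * β ^ (-(K' : ℤ)) = (t * β ^ (-(K : ℤ))) * β ^ (-(M : ℤ)) := by
      rw [hK']
      push_cast
      rw [← zpow_natCast β l, mul_assoc, mul_assoc, ← zpow_add₀ hβpos.ne', ← zpow_add₀ hβpos.ne']
      congr 2; ring
    calc t' * β ^ (-(K' : ℤ)) ≤ t * β ^ l * β ^ (-(K' : ℤ)) :=
          mul_le_mul_of_nonneg_right ht'le (by positivity)
      _ = (t * β ^ (-(K : ℤ))) * β ^ (-(M : ℤ)) := e1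
      _ ≤ Real.exp (-S) * Real.exp (-(3 / 2 * S)) :=
          mul_le_mul htK hb (by positivity) (Real.exp_pos _).le
      _ = Real.exp (-(5 / 2 * S)) := by rw [← Real.exp_add]; congr 1; ring
  -- cost sum
  have hGf : ∀ m : ℤ, f ≤ |cc (t * β ^ m)| := fun m => by
    have := hG m; have := Real.exp_pos (-S); linarith
  have hcost : ∑ m ∈ Finset.Icc (-(K' : ℤ)) K', cost β t' m ≤ 2 * R + 1 := by
    have hterm : ∀ m : ℤ, cost β t' m ≤ cost β t (l - |m|) + 2 * (η / f) := fun m =>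
      cost_step hf (hGf _) hη0 hηf (hstep m)
    have hA2 : Real.exp (-S) ^ 2 = Real.exp (-(2 * S)) := by
      rw [← Real.exp_nat_mul]; congr 1; push_cast; ring
    have hfar : ∀ m : ℤ, (K : ℤ) < |m| → cost β t m ≤ 16 * π ^ 2 * Real.exp (-(2 * S)) := by
      intro m hm
      obtain ⟨n, hn⟩ := hs.far h1 m
      have h3 : t * β ^ (-|m|) + |a| ≤ 2 * Real.exp (-S) := by
        have h4 : t * β ^ (-|m|) ≤ t * β ^ (-(K : ℤ)) := by
          apply mul_le_mul_of_nonneg_left _ htpos.le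
          apply zpow_le_zpow_right₀ h1.le
          omega
        linarith
      have h5 := cost_far (hn.trans h3) (by
        have : 2 * π ^ 2 * (2 * Real.exp (-S)) ^ 2 = 8 * π ^ 2 * Real.exp (-(2 * S)) := by
          rw [mul_pow, hA2]; ring
        rw [this]; exact hS.c6)
      have e1 : 4 * π ^ 2 * (2 * Real.exp (-S)) ^ 2 = 16 * π ^ 2 * Real.exp (-(2 * S)) := by
        rw [mul_pow, hA2]; ring
      rwa [e1] at h5
    have hlK' : l ≤ K' := by rw [hK']; omega
    have hKK' : K ≤ K' := by rw [hK']; omega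
    have h10 : ∑ m ∈ Finset.Icc (-(K' : ℤ)) K', cost β t' m ≤
        2 * ∑ m ∈ Finset.Icc (-(K' : ℤ)) K', (cost β t m + 2 * (η / f)) := by
      refine (Finset.sum_le_sum fun m _ => hterm m).trans ?_
      exact sum_reflect_le l K' hlK' (fun m => cost β t m + 2 * (η / f)) (fun m => by
        have := cost_nonneg β t m
        have : 0 ≤ η / f := by positivity
        linarith)
    have hcard : ((Finset.Icc (-(K' : ℤ)) K').card : ℝ) = 2 * K' + 1 := by
      have : (Finset.Icc (-(K' : ℤ)) K').card = 2 * K' + 1 := by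
        rw [Int.card_Icc]; omega
      rw [this]; push_cast; ring
    rw [Finset.sum_add_distrib, Finset.sum_const, nsmul_eq_mul, hcard] at h10
    have h11 := sum_far_le hKK' (fun m => cost β t m) (16 * π ^ 2 * Real.exp (-(2 * S)))
      (by positivity) hfar
    have h12 : (2 * (K' : ℝ) + 1) * (16 * π ^ 2 * Real.exp (-(2 * S))) ≤
        (2 * Real.exp (9 / 5 * S) + 1) * (16 * π ^ 2 * Real.exp (-(2 * S))) := by
      apply mul_le_mul_of_nonneg_right _ (by positivity)
      linarith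
    have h13 : (2 * (K' : ℝ) + 1) * (2 * (η / f)) ≤
        (2 * Real.exp (9 / 5 * S) + 1) * (2 * (4 * π * Real.exp (-(5 / 2 * S)) / f)) := by
      apply mul_le_mul
      · linarith
      · have := div_le_div_of_nonneg_right hηle hf.le
        linarith
      · positivity
      · positivity
    have h14 := hS.c7
    linarith
  refine ⟨t', _, j, r, K', hs', ha', ?_, ?_, ?_, ?_, htK', ?_, hcost⟩
  · intro m
    have h3 := hstep m
    have h4 := hG ((l : ℤ) - |m|)
    have h5 : (4 * π + 1) * Real.exp (-(5 / 2 * S)) ≤ Real.exp (-S) := by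
      have h6 := mul_le_mul_of_nonneg_right hS.c2 (Real.exp_pos (-(5 / 2 * S))).le
      rw [← Real.exp_add] at h6
      have e1 : 3 / 2 * S + -(5 / 2 * S) = -S := by ring
      rwa [e1] at h6
    linarith
  · calc t' ≤ t * β ^ l := ht'le
      _ ≤ β ^ (2 * (r0 * j0)) * β ^ l := mul_le_mul_of_nonneg_right htβ (by positivity)
      _ = β ^ (2 * (r0 * j0) + l) := by rw [pow_add]
      _ ≤ β ^ (2 * (r * j)) := by
          apply pow_le_pow_right₀ h1.le
          rw [← hl]; omega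
  · have h3 := hS.c4
    have e1 : 5 / 2 * S / 10 = S / 4 := by ring
    rw [e1]
    linarith
  · intro i hi1 hi2
    have h3 := hjmin i hi1 hi2
    refine lt_of_le_of_lt ?_ h3
    rw [he, le_div_iff₀ hrpos]
    have h4 : Real.exp (-(3 / 2 * (5 / 2 * S))) * r ≤
        Real.exp (-(3 / 2 * (5 / 2 * S))) * Real.exp (S / 4) := by
      apply mul_le_mul_of_nonneg_left _ (Real.exp_pos _).le
      have := hS.c4
      have := Real.exp_pos (S / 10)
      linarith
    refine h4.trans ?_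
    rw [← Real.exp_add]
    apply Real.exp_le_exp.2
    linarith
  · have e1 : 18 / 25 * (5 / 2 * S) = 9 / 5 * S := by ring
    rw [e1]; exact hK'_le

end Crest.Agent.R104
end

-- ▼ part R104/B4
section

/-!
Task B, part 4: largeness, first stage, induction, conclusion.
-/

set_option autoImplicit false

namespace Crest.Agent.R104

open scoped Real
open Filter

lemma ev_exp (c ε : ℝ) (hc : 0 < c) (hε : 0 < ε) : ∀ᶠ S : ℝ in atTop, Real.exp (-(c * S)) ≤ ε := by
  have h1 : Tendsto (fun S : ℝ => Real.exp (-(c * S))) atTop (nhds 0) := by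
    apply Real.tendsto_exp_neg_atTop_nhds_zero.comp
    exact tendsto_id.const_mul_atTop hc
  exact (h1.eventually (ge_mem_nhds hε))

lemma ev_lin (c C : ℝ) (hc : 0 < c) : ∀ᶠ S : ℝ in atTop, C ≤ Real.exp (c * S) := by
  have h1 : Tendsto (fun S : ℝ => Real.exp (c * S)) atTop atTop :=
    Real.tendsto_exp_atTop.comp (tendsto_id.const_mul_atTop hc)
  exact h1.eventually_ge_atTop C

lemma ev_mul (c d : ℝ) (hc : 0 < c) (hd : 0 < d) :
    ∀ᶠ S : ℝ in atTop, S ≤ d * Real.exp (c * S) := by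
  filter_upwards [eventually_ge_atTop (0 : ℝ), eventually_ge_atTop (2 / (c ^ 2 * d))] with S hS0 hS
  have h1 := Real.quadratic_le_exp_of_nonneg (x := c * S) (by positivity)
  have h2 : (c * S) ^ 2 / 2 ≤ Real.exp (c * S) := by
    have : 0 ≤ c * S := by positivity
    linarith
  have h3 : d * ((c * S) ^ 2 / 2) ≤ d * Real.exp (c * S) := mul_le_mul_of_nonneg_left h2 hd.le
  rw [div_le_iff₀ (by positivity)] at hS
  nlinarith

lemma ev_big (β f : ℝ) (h1 : 1 < β) (hf : 0 < f) : ∀ᶠ S : ℝ in atTop, Big β f S := by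
  have hpi := Real.pi_pos
  have hlog : 0 < Real.log β := Real.log_pos h1
  filter_upwards [eventually_ge_atTop (1 : ℝ), ev_mul (1 / 10) (Real.log β / 5) (by norm_num)
      (by positivity), ev_lin (3 / 2) (4 * π + 1) (by norm_num), ev_lin (3 / 20) 8 (by norm_num),
      ev_lin (1 / 10) 70 (by norm_num), ev_mul (17 / 10) (2 / 3 * Real.log β) (by norm_num)
      (by positivity), ev_exp 2 (1 / (16 * π ^ 2)) (by norm_num) (by positivity),
      ev_exp (1 / 5) (1 / (200 * π ^ 2)) (by norm_num) (by positivity),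
      ev_exp (7 / 10) (f / (100 * π)) (by norm_num) (by positivity),
      ev_exp (5 / 2) (f / (8 * π)) (by norm_num) (by positivity)] with S g1 g2 g3 g4 g5 g6 g7 g8 g9 g10
  have hS0 : 0 ≤ S := by linarith
  refine ⟨g1, ?_, g3, ?_, ?_, ?_, ?_, ?_⟩
  · have e1 : S / 10 = 1 / 10 * S := by ring
    rw [e1]
    linarith
  · have e1 : Real.exp (S / 4) = Real.exp (S / 10) * Real.exp (3 / 20 * S) := by
      rw [← Real.exp_add]; congr 1; ring
    rw [e1, mul_comm]
    exact mul_le_mul_of_nonneg_left g4 (Real.exp_pos _).le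
  · have e1 : Real.exp (9 / 5 * S) = Real.exp (17 / 10 * S) * Real.exp (1 / 10 * S) := by
      rw [← Real.exp_add]; congr 1; ring
    have h2 := mul_le_mul_of_nonneg_left g5 (Real.exp_pos (17 / 10 * S)).le
    have h3 : Real.exp (6 / 5 * S) ≤ Real.exp (17 / 10 * S) := Real.exp_le_exp.2 (by linarith)
    have h4 : 1 ≤ Real.exp (17 / 10 * S) := Real.one_le_exp (by linarith)
    have h5 : 3 / 2 * S / Real.log β ≤ Real.exp (17 / 10 * S) := by
      rw [div_le_iff₀ hlog]; linarith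
    rw [e1]; linarith
  · rw [le_div_iff₀ (by positivity)] at g7
    linarith
  · have hE : 1 ≤ Real.exp (9 / 5 * S) := Real.one_le_exp (by linarith)
    have e2 : Real.exp (9 / 5 * S) * Real.exp (-(2 * S)) = Real.exp (-(1 / 5 * S)) := by
      rw [← Real.exp_add]; congr 1; ring
    have e3 : Real.exp (9 / 5 * S) * Real.exp (-(5 / 2 * S)) = Real.exp (-(7 / 10 * S)) := by
      rw [← Real.exp_add]; congr 1; ring
    have h3 : 2 * Real.exp (9 / 5 * S) + 1 ≤ 3 * Real.exp (9 / 5 * S) := by linarith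
    have p1 : 2 * ((2 * Real.exp (9 / 5 * S) + 1) * (16 * π ^ 2 * Real.exp (-(2 * S)))) ≤ 1 / 2 := by
      calc 2 * ((2 * Real.exp (9 / 5 * S) + 1) * (16 * π ^ 2 * Real.exp (-(2 * S))))
          ≤ 2 * ((3 * Real.exp (9 / 5 * S)) * (16 * π ^ 2 * Real.exp (-(2 * S)))) := by
            apply mul_le_mul_of_nonneg_left _ (by norm_num)
            exact mul_le_mul_of_nonneg_right h3 (by positivity)
        _ = 96 * π ^ 2 * (Real.exp (9 / 5 * S) * Real.exp (-(2 * S))) := by ring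
        _ = 96 * π ^ 2 * Real.exp (-(1 / 5 * S)) := by rw [e2]
        _ ≤ 1 / 2 := by
            rw [le_div_iff₀ (by positivity)] at g8
            have := Real.exp_pos (-(1 / 5 * S))
            nlinarith
    have p2 : 2 * ((2 * Real.exp (9 / 5 * S) + 1) * (2 * (4 * π * Real.exp (-(5 / 2 * S)) / f))) ≤
        1 / 2 := by
      calc 2 * ((2 * Real.exp (9 / 5 * S) + 1) * (2 * (4 * π * Real.exp (-(5 / 2 * S)) / f)))
          ≤ 2 * ((3 * Real.exp (9 / 5 * S)) * (2 * (4 * π * Real.exp (-(5 / 2 * S)) / f))) := by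
            apply mul_le_mul_of_nonneg_left _ (by norm_num)
            exact mul_le_mul_of_nonneg_right h3 (by positivity)
        _ = 48 * π * (Real.exp (9 / 5 * S) * Real.exp (-(5 / 2 * S))) / f := by ring
        _ = 48 * π * Real.exp (-(7 / 10 * S)) / f := by rw [e3]
        _ ≤ 1 / 2 := by
            rw [le_div_iff₀ (by positivity)] at g9
            rw [div_le_iff₀ hf]
            have := Real.exp_pos (-(7 / 10 * S))
            nlinarith
    linarith
  · rw [le_div_iff₀ (by positivity)] at g10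
    linarith

/-- a state with small `a`. -/
lemma exists_small {β θ : ℝ} (h1 : 1 < β) (hint : IsIntegral ℤ β) (hint' : IsIntegral ℤ β⁻¹)
    (hrel : ∀ m : ℤ, ∃ n : ℤ, β ^ m + β ^ (-m) + 2 * Real.cos (m * θ) = n) :
    ∃ t a : ℝ, St β θ t a ∧ |a| ≤ 1 / 16 := by
  obtain ⟨r, hr⟩ := pow_unbounded_of_one_lt (2 : ℝ) h1
  have hr0 : 1 ≤ r := by
    by_contra hcon
    have : r = 0 := by omega
    rw [this] at hr; norm_num at hr
  have hrR : (1 : ℝ) ≤ r := by exact_mod_cast hr0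
  obtain ⟨j, hj1, hj2, -⟩ := dirichlet_sin θ (1 / (32 * r)) (by positivity)
  have hl : 2 ≤ β ^ ((r * j : ℕ) : ℤ) := by
    rw [zpow_natCast]
    calc (2 : ℝ) ≤ β ^ r := hr.le
      _ ≤ β ^ (r * j) := pow_le_pow_right₀ h1.le (Nat.le_mul_of_pos_right r hj1)
  refine ⟨_, _, (St.init hrel).step h1 hint hint' (r * j) hl, ?_⟩
  have h4 := abs_sin_nat_mul_le r (j * θ)
  have e1 : (r : ℝ) * (j * θ) = ((r * j : ℕ) : ℝ) * θ := by push_cast; ring
  rw [e1] at h4
  rw [abs_mul, abs_two] at hj2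
  have h5 : |2 * 2 * Real.sin (((r * j : ℕ) : ℝ) * θ)| = 4 * |Real.sin (((r * j : ℕ) : ℝ) * θ)| := by
    rw [abs_mul]; norm_num
  rw [h5]
  rw [le_div_iff₀ (by positivity)] at hj2
  have h6 : (r : ℝ) * |Real.sin (j * θ)| ≤ 1 / 64 := by
    nlinarith [abs_nonneg (Real.sin (j * θ))]
  linarith

lemma exists_lower {β θ t a : ℝ} (h1 : 1 < β) (hint : IsIntegral ℤ β) (hint' : IsIntegral ℤ β⁻¹)
    (hs : St β θ t a) (ha : |a| ≤ 1 / 16) : ∃ f : ℝ, 0 < f ∧ ∀ m : ℤ, f ≤ |cc (t * β ^ m)| := by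
  have hβpos : 0 < β := by linarith
  have htpos : 0 < t := by linarith [hs.one_le]
  obtain ⟨M, hM⟩ := pow_unbounded_of_one_lt (16 * t) h1
  have hfar : ∀ m : ℤ, (M : ℤ) < |m| → 1 / 2 ≤ |cc (t * β ^ m)| := by
    intro m hm
    obtain ⟨n, hn⟩ := hs.far h1 m
    have h3 : t * β ^ (-|m|) ≤ 1 / 16 := by
      have h4 : β ^ (-|m|) ≤ β ^ (-(M : ℤ)) := by
        apply zpow_le_zpow_right₀ h1.le; omega
      have h5 : t * β ^ (-(M : ℤ)) ≤ 1 / 16 := by
        rw [zpow_neg, zpow_natCast, ← div_eq_mul_inv, div_le_iff₀ (by positivity)]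
        linarith
      exact (mul_le_mul_of_nonneg_left h4 htpos.le).trans h5
    have h6 := cc_ge_of_near _ (1 / 8) n (hn.trans (by linarith))
    have hpi : π < 3.15 := Real.pi_lt_d2
    have hpi0 := Real.pi_pos
    nlinarith
  obtain ⟨m0, hm0, hmin⟩ := Finset.exists_min_image (Finset.Icc (-(M : ℤ)) M)
    (fun m => |cc (t * β ^ m)|) ⟨0, by simp⟩
  refine ⟨min (1 / 2) |cc (t * β ^ m0)|, lt_min (by norm_num) (hs.pos hint hint' m0), fun m => ?_⟩
  rcases lt_or_ge (M : ℤ) |m| with h | h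
  · exact (min_le_left _ _).trans (hfar m h)
  · refine (min_le_right _ _).trans (hmin m ?_)
    rw [Finset.mem_Icc]
    exact abs_le.1 h

lemma exists_first {β θ : ℝ} (h1 : 1 < β) (hint : IsIntegral ℤ β) (hint' : IsIntegral ℤ β⁻¹)
    (hrel : ∀ m : ℤ, ∃ n : ℤ, β ^ m + β ^ (-m) + 2 * Real.cos (m * θ) = n) :
    ∃ f : ℝ, 0 < f ∧ ∀ᶠ S in atTop, ∃ R : ℝ, 0 ≤ R ∧ Inv β θ f (6 / 5) S R := by
  obtain ⟨t0, a0, hs0, ha0⟩ := exists_small h1 hint hint' hrel
  obtain ⟨f0, hf0, hG0⟩ := exists_lower h1 hint hint' hs0 ha0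
  refine ⟨f0 / 2, by positivity, ?_⟩
  have hβpos : 0 < β := by linarith
  have hpi := Real.pi_pos
  have hlog : 0 < Real.log β := Real.log_pos h1
  have htpos : 0 < t0 := by linarith [hs0.one_le]
  obtain ⟨r, hr⟩ := pow_unbounded_of_one_lt (max (max 2 t0) (16 * π * t0 / f0)) h1
  have hr2 : 2 < β ^ r := lt_of_le_of_lt ((le_max_left _ _).trans (le_max_left _ _)) hr
  have hrt : t0 < β ^ r := lt_of_le_of_lt ((le_max_right _ _).trans (le_max_left _ _)) hr
  have hrf : 16 * π * t0 / f0 < β ^ r := lt_of_le_of_lt (le_max_right _ _) hr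
  have hr0 : 1 ≤ r := by
    by_contra hcon
    have : r = 0 := by omega
    rw [this] at hr2; norm_num at hr2
  have hrR : (1 : ℝ) ≤ r := by exact_mod_cast hr0
  have hrpos : (0 : ℝ) < r := by linarith
  filter_upwards [eventually_ge_atTop (1 : ℝ),
      ev_exp 1 (3 * f0 / (8 * (2 * π + 1))) (by norm_num) (by positivity),
      ev_lin (1 / 10) (4 * r) (by norm_num), ev_lin (1 / 2) (r : ℝ) (by norm_num),
      ev_lin (1 / 5) (8 * r ^ 2 + r + 2) (by norm_num),
      ev_mul 1 (Real.log β) (by norm_num) hlog] with S g1 g2 g3 g4 g5 g6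
  have hS0 : 0 ≤ S := by linarith
  rw [one_mul] at g2 g6
  set e : ℝ := Real.exp (-S) / r with he
  have hepos : 0 < e := by positivity
  obtain ⟨j, hj1, hje, hjle, hjmin⟩ := dirichlet_sin_min θ e hepos
  set l : ℕ := r * j with hl
  have hlr : r ≤ l := Nat.le_mul_of_pos_right r hj1
  have hpow : β ^ r ≤ β ^ l := pow_le_pow_right₀ h1.le hlr
  have hl2 : 2 ≤ β ^ (l : ℤ) := by rw [zpow_natCast]; linarith
  have hs1 := hs0.step h1 hint hint' l hl2
  have hlinv : β ^ (-(l : ℤ)) ≤ (β ^ r)⁻¹ := by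
    rw [zpow_neg, zpow_natCast]
    exact inv_anti₀ (by positivity) hpow
  have ha1 : |2 * a0 * Real.sin (l * θ)| ≤ Real.exp (-S) := by
    have h4 := abs_sin_nat_mul_le r (j * θ)
    have e1 : (r : ℝ) * (j * θ) = (l : ℝ) * θ := by rw [hl]; push_cast; ring
    rw [e1] at h4
    rw [abs_mul, abs_two] at hje
    have h5 : 2 * |Real.sin (l * θ)| ≤ Real.exp (-S) := by
      calc 2 * |Real.sin (l * θ)| ≤ r * (2 * |Real.sin (j * θ)|) := by linarith
        _ ≤ r * e := mul_le_mul_of_nonneg_left hje hrpos.le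
        _ = Real.exp (-S) := by rw [he]; field_simp
    have h6 : |2 * a0 * Real.sin (l * θ)| = |a0| * (2 * |Real.sin (l * θ)|) := by
      rw [abs_mul, abs_mul, abs_two]; ring
    rw [h6]
    have h7 : 0 ≤ 2 * |Real.sin (l * θ)| := by positivity
    nlinarith [abs_nonneg a0]
  set t1 : ℝ := t0 * (β ^ (l : ℤ) - β ^ (-(l : ℤ))) with ht1
  have ht1le : t1 ≤ t0 * β ^ l := by
    rw [ht1, zpow_natCast]
    apply mul_le_mul_of_nonneg_left _ htpos.le
    have : 0 ≤ β ^ (-(l : ℤ)) := by positivity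
    linarith
  set M : ℕ := ⌈S / Real.log β⌉₊ with hM
  have hM_ge : S / Real.log β ≤ M := Nat.le_ceil _
  have hM_le : (M : ℝ) ≤ S / Real.log β + 1 := (Nat.ceil_lt_add_one (by positivity)).le
  set K : ℕ := l + r + M with hK
  refine ⟨∑ m ∈ Finset.Icc (-(K : ℤ)) K, cost β t1 m,
    Finset.sum_nonneg fun m _ => cost_nonneg _ _ _,
    t1, _, j, r, K, hs1, ha1, ?_, ?_, ?_, ?_, ?_, ?_, le_rfl⟩
  · intro m
    have h3 := hs0.step_ge h1 l m
    have h4 := hG0 ((l : ℤ) - |m|)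
    have h5 : t0 * β ^ (-(l : ℤ)) ≤ f0 / (16 * π) := by
      calc t0 * β ^ (-(l : ℤ)) ≤ t0 * (β ^ r)⁻¹ := mul_le_mul_of_nonneg_left hlinv htpos.le
        _ ≤ f0 / (16 * π) := by
          rw [div_lt_iff₀ hf0] at hrf
          rw [← div_eq_mul_inv, div_le_div_iff₀ (by positivity) (by positivity)]
          linarith
    have h6 : 2 * π * (t0 * β ^ (-(l : ℤ)) + |2 * a0 * Real.sin (l * θ)|) ≤
        f0 / 8 + 2 * π * Real.exp (-S) := by
      have h7 := mul_le_mul_of_nonneg_left (add_le_add h5 ha1) Real.two_pi_pos.le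
      have e1 : 2 * π * (f0 / (16 * π) + Real.exp (-S)) = f0 / 8 + 2 * π * Real.exp (-S) := by
        field_simp; ring
      rwa [e1] at h7
    have h8 : (2 * π + 1) * Real.exp (-S) ≤ 3 * f0 / 8 := by
      rw [le_div_iff₀ (by positivity)] at g2
      linarith
    linarith
  · calc t1 ≤ t0 * β ^ l := ht1le
      _ ≤ β ^ r * β ^ l := mul_le_mul_of_nonneg_right hrt.le (by positivity)
      _ = β ^ (r + l) := by rw [pow_add]
      _ ≤ β ^ (2 * (r * j)) := by
          apply pow_le_pow_right₀ h1.le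
          rw [← hl]; omega
  · have e1 : S / 10 = 1 / 10 * S := by ring
    rw [e1]; exact g3
  · intro i hi1 hi2
    refine lt_of_le_of_lt ?_ (hjmin i hi1 hi2)
    rw [he, le_div_iff₀ hrpos]
    calc Real.exp (-(3 / 2 * S)) * r ≤ Real.exp (-(3 / 2 * S)) * Real.exp (1 / 2 * S) :=
          mul_le_mul_of_nonneg_left g4 (Real.exp_pos _).le
      _ = Real.exp (-S) := by rw [← Real.exp_add]; congr 1; ring
  · have hb : β ^ (-(M : ℤ)) ≤ Real.exp (-S) := by
      have : β ^ (-(M : ℤ)) = Real.exp (-(M : ℝ) * Real.log β) := by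
        rw [mul_comm, Real.exp_mul, Real.exp_log hβpos, ← Real.rpow_intCast]
        push_cast; rfl
      rw [this]
      apply Real.exp_le_exp.2
      rw [div_le_iff₀ hlog] at hM_ge
      linarith
    have e1 : t0 * β ^ l * β ^ (-(K : ℤ)) = (t0 * (β ^ r)⁻¹) * β ^ (-(M : ℤ)) := by
      rw [hK, ← zpow_natCast β l, ← zpow_natCast β r, ← zpow_neg, mul_assoc, mul_assoc,
        ← zpow_add₀ hβpos.ne', ← zpow_add₀ hβpos.ne']
      congr 2; push_cast; ring
    calc t1 * β ^ (-(K : ℤ)) ≤ t0 * β ^ l * β ^ (-(K : ℤ)) :=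
          mul_le_mul_of_nonneg_right ht1le (by positivity)
      _ = (t0 * (β ^ r)⁻¹) * β ^ (-(M : ℤ)) := e1
      _ ≤ 1 * Real.exp (-S) := by
          apply mul_le_mul _ hb (by positivity) (by norm_num)
          rw [← div_eq_mul_inv, div_le_one (by positivity)]
          exact hrt.le
      _ = Real.exp (-S) := one_mul _
  · have h3 : (l : ℝ) = r * j := by rw [hl]; push_cast; ring
    have h4 : 2 * π / e = 2 * π * r * Real.exp S := by
      rw [he, Real.exp_neg]; field_simp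
    rw [h4] at hjle
    have hE3 : 1 ≤ Real.exp S := Real.one_le_exp (by linarith)
    have h5 : (j : ℝ) ≤ 8 * r * Real.exp S := by
      have h6 : 1 ≤ r * Real.exp S := by nlinarith
      have h7 : π ≤ 3.15 := Real.pi_lt_d2.le
      have h8 : 2 * π * r * Real.exp S ≤ 6.3 * (r * Real.exp S) := by
        have : 0 < r * Real.exp S := by positivity
        nlinarith
      nlinarith
    have h6 : (l : ℝ) ≤ 8 * r ^ 2 * Real.exp S := by
      rw [h3]
      have := mul_le_mul_of_nonneg_left h5 hrpos.le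
      nlinarith
    have h7 : S / Real.log β ≤ Real.exp S := by
      rw [div_le_iff₀ hlog]; linarith
    have h8 : Real.exp (6 / 5 * S) = Real.exp (1 / 5 * S) * Real.exp S := by
      rw [← Real.exp_add]; congr 1; ring
    rw [hK, h8]; push_cast
    have h9 := mul_le_mul_of_nonneg_right g5 (Real.exp_pos S).le
    have h10 : (r : ℝ) ≤ r * Real.exp S := by nlinarith
    nlinarith

lemma Inv.mono {β θ f c c' S R : ℝ} (h : Inv β θ f c S R) (hc : c ≤ c') (hS : 0 ≤ S) :
    Inv β θ f c' S R := by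
  obtain ⟨t, a, j0, r0, K, hs, ha, hG, htβ, hr0, hj0, htK, hKS, hR⟩ := h
  refine ⟨t, a, j0, r0, K, hs, ha, hG, htβ, hr0, hj0, htK, hKS.trans ?_, hR⟩
  apply Real.exp_le_exp.2
  exact mul_le_mul_of_nonneg_right hc hS

lemma Inv.iter {β θ f S R S0 : ℝ} (h1 : 1 < β) (hint : IsIntegral ℤ β) (hint' : IsIntegral ℤ β⁻¹)
    (hf : 0 < f) (hbig : ∀ S', S0 ≤ S' → Big β f S') (hS : S0 ≤ S) (hSpos : 0 ≤ S)
    (h : Inv β θ f (6 / 5) S R) (k : ℕ) :
    Inv β θ f (18 / 25) ((5 / 2) ^ (k + 1) * S) (2 ^ (k + 1) * (R + 1) - 1) := by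
  induction k with
  | zero =>
    have := h.step h1 hint hint' hf (hbig S hS)
    convert this using 1 <;> ring
  | succ k ih =>
    have hone : (1 : ℝ) ≤ (5 / 2) ^ (k + 1) := one_le_pow₀ (by norm_num)
    have hge : S ≤ (5 / 2) ^ (k + 1) * S := by nlinarith
    have h2 := (ih.mono (c' := 6 / 5) (by norm_num) (by linarith)).step h1 hint hint' hf
      (hbig _ (by linarith))
    convert h2 using 1 <;> ring

theorem taskB (β θ : ℝ) (h1 : 1 < β) (hint : IsIntegral ℤ β) (hint' : IsIntegral ℤ β⁻¹)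
    (hrel : ∀ m : ℤ, ∃ n : ℤ, β ^ m + β ^ (-m) + 2 * Real.cos (m * θ) = n)
    (κ : ℝ) (hκ : 0 < κ) :
    ∃ (t A : ℝ) (K : ℕ), 1 ≤ t ∧ 0 < A ∧ A ≤ 1 ∧ t * β ^ (-(K : ℤ)) ≤ A ∧
      (∀ m : ℤ, (K : ℤ) < m → ∃ n : ℤ, |t * β ^ m - n| ≤ 2 * A) ∧
      0 < |q β t K| ∧
      ((K : ℝ) + 1) * A ≤ κ * (q β t K) ^ 2 := by
  obtain ⟨f, hf, hfirst⟩ := exists_first h1 hint hint' hrel
  obtain ⟨S0, hS0⟩ := eventually_atTop.1 (ev_big β f h1 hf)
  obtain ⟨S, ⟨R, hR0, hInv⟩, hS⟩ := (hfirst.and (eventually_ge_atTop (max S0 1))).exists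
  have hSS0 : S0 ≤ S := (le_max_left _ _).trans hS
  have hS1 : 1 ≤ S := (le_max_right _ _).trans hS
  -- choose k
  obtain ⟨k, hk⟩ := pow_unbounded_of_one_lt
    ((2 * (R + 1) + |Real.log (2 / κ)|) / (7 / 25 * S)) (by norm_num : (1 : ℝ) < 5 / 4)
  rw [div_lt_iff₀ (by positivity)] at hk
  have hI := hInv.iter h1 hint hint' hf hS0 hSS0 (by linarith) k
  set S' : ℝ := (5 / 2) ^ (k + 1) * S with hS'
  set R' : ℝ := 2 ^ (k + 1) * (R + 1) - 1 with hR'
  have hkey : 2 * R' + Real.log (2 / κ) ≤ 7 / 25 * S' := by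
    have e1 : (5 / 2 : ℝ) ^ (k + 1) = 2 ^ (k + 1) * (5 / 4) ^ (k + 1) := by
      rw [← mul_pow]; norm_num
    have h2k : (1 : ℝ) ≤ 2 ^ (k + 1) := one_le_pow₀ (by norm_num)
    have h54 : (5 / 4 : ℝ) ^ k ≤ (5 / 4) ^ (k + 1) := pow_le_pow_right₀ (by norm_num) (by omega)
    have h3 : 2 * (R + 1) + |Real.log (2 / κ)| ≤ (5 / 4) ^ (k + 1) * (7 / 25 * S) := by
      have := mul_le_mul_of_nonneg_right h54 (by positivity : 0 ≤ 7 / 25 * S)
      linarith
    have h4 := mul_le_mul_of_nonneg_left h3 (by positivity : (0 : ℝ) ≤ 2 ^ (k + 1))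
    have h5 : |Real.log (2 / κ)| ≤ 2 ^ (k + 1) * |Real.log (2 / κ)| := by
      have := abs_nonneg (Real.log (2 / κ))
      nlinarith
    have h6 := le_abs_self (Real.log (2 / κ))
    rw [hS', hR', e1]
    nlinarith
  have hS'pos : 0 < S' := by rw [hS']; positivity
  clear_value S' R'
  obtain ⟨t, a, j0, r0, K, hs, ha, hG, htβ, hr0, hj0, htK, hKS, hcost⟩ := hI
  have htpos : 0 < t := by linarith [hs.one_le]
  have hqabs : |q β t K| = Real.exp (-∑ m ∈ Finset.Icc (-(K : ℤ)) K, cost β t m) := by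
    unfold q cost
    rw [Finset.abs_prod, Finset.sum_neg_distrib, neg_neg, Real.exp_sum]
    apply Finset.prod_congr rfl
    intro m _
    rw [Real.exp_log (hs.pos hint hint' m)]
  refine ⟨t, Real.exp (-S'), K, hs.one_le, Real.exp_pos _, ?_, htK, ?_, ?_, ?_⟩
  · rw [Real.exp_le_one_iff]; linarith
  · intro m hm
    obtain ⟨n, hn⟩ := hs.far h1 m
    refine ⟨n, hn.trans ?_⟩
    have h4 : t * β ^ (-|m|) ≤ t * β ^ (-(K : ℤ)) := by
      apply mul_le_mul_of_nonneg_left _ htpos.le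
      apply zpow_le_zpow_right₀ h1.le
      rw [abs_of_nonneg (by omega)]; omega
    linarith
  · rw [hqabs]; exact Real.exp_pos _
  · have h2 : (q β t K) ^ 2 = |q β t K| ^ 2 := (sq_abs _).symm
    rw [h2, hqabs, ← Real.exp_nat_mul]
    have h3 : Real.exp (-(2 * R')) ≤
        Real.exp ((2 : ℕ) * -∑ m ∈ Finset.Icc (-(K : ℤ)) K, cost β t m) := by
      apply Real.exp_le_exp.2
      push_cast; linarith
    have h4 : ((K : ℝ) + 1) * Real.exp (-S') ≤ 2 * Real.exp (-(7 / 25 * S')) := by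
      have h5 : (K : ℝ) + 1 ≤ 2 * Real.exp (18 / 25 * S') := by
        have : 1 ≤ Real.exp (18 / 25 * S') := Real.one_le_exp (by positivity)
        linarith
      calc ((K : ℝ) + 1) * Real.exp (-S') ≤ 2 * Real.exp (18 / 25 * S') * Real.exp (-S') :=
            mul_le_mul_of_nonneg_right h5 (Real.exp_pos _).le
        _ = 2 * Real.exp (-(7 / 25 * S')) := by
            rw [mul_assoc, ← Real.exp_add]; congr 2; ring
    have h6 : 2 * Real.exp (-(7 / 25 * S')) ≤ κ * Real.exp (-(2 * R')) := by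
      have h7 : Real.exp (-(7 / 25 * S')) ≤ Real.exp (-(2 * R') - Real.log (2 / κ)) :=
        Real.exp_le_exp.2 (by linarith)
      rw [Real.exp_sub, Real.exp_log (by positivity)] at h7
      have e2 : Real.exp (-(2 * R')) / (2 / κ) = κ * Real.exp (-(2 * R')) / 2 := by
        field_simp
      rw [e2] at h7
      linarith
    calc ((K : ℝ) + 1) * Real.exp (-S') ≤ κ * Real.exp (-(2 * R')) := h4.trans h6
      _ ≤ _ := mul_le_mul_of_nonneg_left h3 hκ.le

end Crest.Agent.R104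
end

-- ▼ part R104/C2
section

/-!
Task C2: L² estimate under the fair coin measure.
-/

set_option autoImplicit false

namespace Crest.Agent.R104

open MeasureTheory ProbabilityTheory Crest.AnalysisR
open scoped Real ENNReal

lemma sg_abs (b : Bool) : |sg b| = 1 := by cases b <;> simp [sg]

lemma sg_mul_self (b : Bool) : sg b * sg b = 1 := by cases b <;> simp [sg]

lemma cc_add_int (x : ℝ) (n : ℤ) : cc (x + n) = cc x := by
  unfold cc
  rw [mul_add, show 2 * π * (n : ℝ) = n * (2 * π) by ring, Real.cos_add_int_mul_two_pi]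

lemma abs_cc_le (x : ℝ) : |cc x| ≤ 1 := Real.abs_cos_le_one _

lemma abs_cc_sub_le (x y : ℝ) : |cc (x + y) - cc x| ≤ 2 * π * |y| := by
  unfold cc
  refine (Real.abs_cos_sub_cos_le _ _).trans ?_
  rw [show 2 * π * (x + y) - 2 * π * x = 2 * π * y by ring, abs_mul,
    abs_of_pos (by positivity : (0 : ℝ) < 2 * π)]

lemma measurable_cc : Measurable cc := by unfold cc; fun_prop

lemma measurable_sgsum (s : Finset ℕ) (a : ℕ → ℝ) :
    Measurable fun ω : ℕ → Bool => ∑ i ∈ s, sg (ω i) * a i := by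
  refine Finset.measurable_sum _ fun i _ => ?_
  exact ((measurable_of_countable sg).comp (measurable_pi_apply i)).mul_const _

lemma integrable_of_bdd (f : (ℕ → Bool) → ℝ) (hf : Measurable f) (C : ℝ) (hC : ∀ ω, |f ω| ≤ C) :
    Integrable f coins :=
  Integrable.of_bound hf.aestronglyMeasurable C (Filter.Eventually.of_forall hC)

lemma integrable_cc_sgsum (s : Finset ℕ) (a : ℕ → ℝ) :
    Integrable (fun ω => cc (∑ i ∈ s, sg (ω i) * a i)) coins :=
  integrable_of_bdd _ (measurable_cc.comp (measurable_sgsum s a)) 1 fun _ => abs_cc_le _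

lemma integrable_cc_mul (s s' : Finset ℕ) (a a' : ℕ → ℝ) :
    Integrable (fun ω => cc (∑ i ∈ s, sg (ω i) * a i) * cc (∑ i ∈ s', sg (ω i) * a' i)) coins :=
  integrable_of_bdd _ ((measurable_cc.comp (measurable_sgsum s a)).mul
    (measurable_cc.comp (measurable_sgsum s' a'))) 1 fun ω => by
      rw [abs_mul]
      exact mul_le_one₀ (abs_cc_le _) (abs_nonneg _) (abs_cc_le _)

lemma coins_integral_prod_real (s : Finset ℕ) (g : ℕ → Bool → ℝ) :
    ∫ ω, ∏ i ∈ s, g i (ω i) ∂coins = ∏ i ∈ s, ∫ b, g i b ∂fairCoin := by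
  have hind : iIndepFun (fun (i : ℕ) (ω : ℕ → Bool) => ω i) coins :=
    iIndepFun_infinitePi (P := fun _ : ℕ => fairCoin) (X := fun _ b => b)
      (fun _ => measurable_id)
  have hind' : iIndepFun (fun (i : s) (ω : ℕ → Bool) => ω (i : ℕ)) coins :=
    hind.precomp Subtype.val_injective
  have h := hind'.integral_fun_prod_comp (f := fun i : s => g (i : ℕ))
    (fun i => (measurable_pi_apply _).aemeasurable)
    (fun i => (measurable_of_countable _).aestronglyMeasurable)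
  have e1 : (fun ω : ℕ → Bool => ∏ i : s, g (i : ℕ) (ω (i : ℕ))) =
      fun ω => ∏ i ∈ s, g i (ω i) := by
    funext ω
    exact Finset.prod_coe_sort s (fun i => g i (ω i))
  rw [e1] at h
  rw [h, Finset.prod_coe_sort s (fun i => ∫ ω : ℕ → Bool, g i (ω i) ∂coins)]
  refine Finset.prod_congr rfl fun i _ => ?_
  have hm : Measure.map (fun ω : ℕ → Bool => ω i) coins = fairCoin :=
    Measure.infinitePi_map_eval (fun _ : ℕ => fairCoin) i
  rw [← hm, integral_map (measurable_pi_apply _).aemeasurable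
    (measurable_of_countable _).aestronglyMeasurable]

lemma coins_integral_sg_mul (i j : ℕ) :
    ∫ ω, sg (ω i) * sg (ω j) ∂coins = if i = j then 1 else 0 := by
  split_ifs with h
  · subst h
    simp [sg_mul_self]
  · have h1 := coins_integral_prod_real {i, j} (fun _ => sg)
    simp only [Finset.prod_pair h] at h1
    rw [h1, integral_fairCoin]
    simp [sg]

lemma integrable_sg_mul (i j : ℕ) (c : ℝ) :
    Integrable (fun ω : ℕ → Bool => sg (ω i) * sg (ω j) * c) coins := by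
  refine integrable_of_bdd _ ?_ |c| fun ω => ?_
  · exact ((((measurable_of_countable sg).comp (measurable_pi_apply i))).mul
      ((measurable_of_countable sg).comp (measurable_pi_apply j))).mul_const _
  · rw [abs_mul, abs_mul, sg_abs, sg_abs]; simp

lemma sgsum_sq (s : Finset ℕ) (a : ℕ → ℝ) (ω : ℕ → Bool) :
    (∑ i ∈ s, sg (ω i) * a i) ^ 2 =
      ∑ i ∈ s, ∑ j ∈ s, sg (ω i) * sg (ω j) * (a i * a j) := by
  rw [sq, Finset.sum_mul_sum]
  refine Finset.sum_congr rfl fun i _ => Finset.sum_congr rfl fun j _ => ?_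
  ring

lemma integrable_sgsum_sq (s : Finset ℕ) (a : ℕ → ℝ) :
    Integrable (fun ω => (∑ i ∈ s, sg (ω i) * a i) ^ 2) coins := by
  simp_rw [sgsum_sq]
  exact integrable_finsetSum _ fun i _ => integrable_finsetSum _ fun j _ =>
    integrable_sg_mul i j _

lemma integral_sgsum_sq (s : Finset ℕ) (a : ℕ → ℝ) :
    ∫ ω, (∑ i ∈ s, sg (ω i) * a i) ^ 2 ∂coins = ∑ i ∈ s, (a i) ^ 2 := by
  simp_rw [sgsum_sq]
  rw [integral_finsetSum _ fun i _ => integrable_finsetSum _ fun j _ =>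
    integrable_sg_mul i j _]
  refine Finset.sum_congr rfl fun i hi => ?_
  rw [integral_finsetSum _ fun j _ => integrable_sg_mul i j _]
  simp_rw [integral_mul_const, coins_integral_sg_mul]
  rw [Finset.sum_eq_single i]
  · simp [sq]
  · intro j _ hj
    rw [if_neg (Ne.symm hj), zero_mul]
  · intro h; exact absurd hi h

lemma cc_mul_cc (x y : ℝ) : cc x * cc y = (cc (x + y) + cc (x - y)) / 2 := by
  unfold cc
  rw [show 2 * π * (x + y) = 2 * π * x + 2 * π * y by ring,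
    show 2 * π * (x - y) = 2 * π * x - 2 * π * y by ring, Real.cos_add, Real.cos_sub]
  ring

lemma cc_neg (x : ℝ) : cc (-x) = cc x := by
  unfold cc
  rw [mul_neg, Real.cos_neg]

lemma coins_integral_cc_mul (s s' : Finset ℕ) (a a' : ℕ → ℝ) (hd : Disjoint s s') :
    ∫ ω, cc (∑ i ∈ s, sg (ω i) * a i) * cc (∑ i ∈ s', sg (ω i) * a' i) ∂coins =
      (∏ i ∈ s, cc (a i)) * ∏ i ∈ s', cc (a' i) := by
  classical
  set b : ℕ → ℝ := fun i => if i ∈ s then a i else a' i with hb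
  set b' : ℕ → ℝ := fun i => if i ∈ s then a i else -a' i with hb'
  have hns : ∀ i ∈ s', i ∉ s := fun i hi his => (Finset.disjoint_left.1 hd) his hi
  have e1 : ∀ ω : ℕ → Bool, (∑ i ∈ s, sg (ω i) * a i) + (∑ i ∈ s', sg (ω i) * a' i) =
      ∑ i ∈ s ∪ s', sg (ω i) * b i := by
    intro ω
    rw [Finset.sum_union hd]
    congr 1
    · exact Finset.sum_congr rfl fun i hi => by simp [hb, hi]
    · exact Finset.sum_congr rfl fun i hi => by simp [hb, hns i hi]
  have e2 : ∀ ω : ℕ → Bool, (∑ i ∈ s, sg (ω i) * a i) - (∑ i ∈ s', sg (ω i) * a' i) =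
      ∑ i ∈ s ∪ s', sg (ω i) * b' i := by
    intro ω
    rw [Finset.sum_union hd, sub_eq_add_neg, ← Finset.sum_neg_distrib]
    congr 1
    · exact Finset.sum_congr rfl fun i hi => by simp [hb', hi]
    · exact Finset.sum_congr rfl fun i hi => by simp [hb', hns i hi]
  have e3 : ∏ i ∈ s ∪ s', cc (b i) = (∏ i ∈ s, cc (a i)) * ∏ i ∈ s', cc (a' i) := by
    rw [Finset.prod_union hd]
    congr 1
    · exact Finset.prod_congr rfl fun i hi => by simp [hb, hi]
    · exact Finset.prod_congr rfl fun i hi => by simp [hb, hns i hi]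
  have e4 : ∏ i ∈ s ∪ s', cc (b' i) = (∏ i ∈ s, cc (a i)) * ∏ i ∈ s', cc (a' i) := by
    rw [Finset.prod_union hd]
    congr 1
    · exact Finset.prod_congr rfl fun i hi => by simp [hb', hi]
    · exact Finset.prod_congr rfl fun i hi => by simp [hb', hns i hi, cc_neg]
  simp_rw [cc_mul_cc, e1, e2]
  rw [integral_div, integral_add (integrable_cc_sgsum _ _) (integrable_cc_sgsum _ _), taskC1,
    taskC1, e3, e4]
  ring

/-- second moment of the centred window averages -/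
lemma window_moment (K N : ℕ) (a : ℕ → ℕ → ℝ) (Q : ℝ)
    (hQ : ∀ n, ∏ i ∈ Finset.Ico n (n + 2 * K + 1), cc (a n i) = Q) :
    ∫ ω, (∑ n ∈ Finset.Icc 1 N,
      (cc (∑ i ∈ Finset.Ico n (n + 2 * K + 1), sg (ω i) * a n i) - Q)) ^ 2 ∂coins ≤
      N * (4 * K + 1) := by
  classical
  set G : ℕ → (ℕ → Bool) → ℝ := fun n ω =>
    cc (∑ i ∈ Finset.Ico n (n + 2 * K + 1), sg (ω i) * a n i) with hG
  have hGi : ∀ n, Integrable (G n) coins := fun n => integrable_cc_sgsum _ _
  have hGGi : ∀ n m, Integrable (fun ω => G n ω * G m ω) coins := fun n m =>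
    integrable_cc_mul _ _ _ _
  have hEG : ∀ n, ∫ ω, G n ω ∂coins = Q := fun n => by
    rw [← hQ n]; exact taskC1 _ _
  have hdd : ∀ n m, (fun ω => (G n ω - Q) * (G m ω - Q)) =
      fun ω => (G n ω * G m ω - Q * G n ω) - (Q * G m ω - Q * Q) := by
    intro n m; funext ω; ring
  have hddi : ∀ n m, Integrable (fun ω => (G n ω - Q) * (G m ω - Q)) coins := by
    intro n m
    rw [hdd]
    exact ((hGGi n m).sub ((hGi n).const_mul Q)).sub
      (((hGi m).const_mul Q).sub (integrable_const _))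
  have hE : ∀ n m, ∫ ω, (G n ω - Q) * (G m ω - Q) ∂coins =
      ∫ ω, G n ω * G m ω ∂coins - Q * Q := by
    intro n m
    have i1 : Integrable (fun ω => G n ω * G m ω - Q * G n ω) coins :=
      (hGGi n m).sub ((hGi n).const_mul Q)
    have i2 : Integrable (fun ω => Q * G m ω - Q * Q) coins :=
      ((hGi m).const_mul Q).sub (integrable_const _)
    rw [hdd, integral_sub i1 i2, integral_sub (hGGi n m) ((hGi n).const_mul Q),
      integral_sub ((hGi m).const_mul Q) (integrable_const _), integral_const_mul,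
      integral_const_mul, hEG, hEG, integral_const]
    simp
  have hbound : ∀ n m, ∫ ω, (G n ω - Q) * (G m ω - Q) ∂coins ≤
      if (n ≤ m + 2 * K ∧ m ≤ n + 2 * K) then 1 else 0 := by
    intro n m
    rw [hE]
    split_ifs with h
    · have h1 : ∫ ω, G n ω * G m ω ∂coins ≤ ∫ _ω : ℕ → Bool, (1 : ℝ) ∂coins := by
        refine integral_mono (hGGi n m) (integrable_const _) fun ω => ?_
        refine (le_abs_self _).trans ?_
        rw [abs_mul]
        exact mul_le_one₀ (abs_cc_le _) (abs_nonneg _) (abs_cc_le _)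
      rw [integral_const] at h1
      simp only [probReal_univ, smul_eq_mul, mul_one] at h1
      nlinarith [mul_self_nonneg Q]
    · have hdisj : Disjoint (Finset.Ico n (n + 2 * K + 1)) (Finset.Ico m (m + 2 * K + 1)) := by
        rw [Finset.disjoint_left]
        intro i hi hj
        rw [Finset.mem_Ico] at hi hj
        apply h
        omega
      have := coins_integral_cc_mul _ _ (a n) (a m) hdisj
      rw [hQ, hQ] at this
      rw [hG]
      simp only
      rw [this, sub_self]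
  have hexp : (fun ω : ℕ → Bool => (∑ n ∈ Finset.Icc 1 N, (G n ω - Q)) ^ 2) =
      fun ω => ∑ n ∈ Finset.Icc 1 N, ∑ m ∈ Finset.Icc 1 N, (G n ω - Q) * (G m ω - Q) := by
    funext ω
    rw [sq, Finset.sum_mul_sum]
  change ∫ ω, (∑ n ∈ Finset.Icc 1 N, (G n ω - Q)) ^ 2 ∂coins ≤ _
  rw [hexp, integral_finsetSum _ fun n _ => integrable_finsetSum _ fun m _ => hddi n m]
  have hcard : ∀ n, ∑ m ∈ Finset.Icc 1 N,
      (if (n ≤ m + 2 * K ∧ m ≤ n + 2 * K) then (1 : ℝ) else 0) ≤ 4 * K + 1 := by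
    intro n
    rw [← Finset.sum_filter, Finset.sum_const, nsmul_eq_mul, mul_one]
    have hsub : (Finset.Icc 1 N).filter (fun m => n ≤ m + 2 * K ∧ m ≤ n + 2 * K) ⊆
        Finset.Icc (n - 2 * K) (n + 2 * K) := by
      intro m hm
      rw [Finset.mem_filter] at hm
      rw [Finset.mem_Icc]
      omega
    have h1 := Finset.card_le_card hsub
    rw [Nat.card_Icc] at h1
    have h2 : ((Finset.Icc 1 N).filter (fun m => n ≤ m + 2 * K ∧ m ≤ n + 2 * K)).card ≤
        4 * K + 1 := by omega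
    exact_mod_cast h2
  calc ∑ n ∈ Finset.Icc 1 N, ∫ ω, ∑ m ∈ Finset.Icc 1 N, (G n ω - Q) * (G m ω - Q) ∂coins
      = ∑ n ∈ Finset.Icc 1 N, ∑ m ∈ Finset.Icc 1 N,
          ∫ ω, (G n ω - Q) * (G m ω - Q) ∂coins := by
        refine Finset.sum_congr rfl fun n _ => ?_
        rw [integral_finsetSum _ fun m _ => hddi n m]
    _ ≤ ∑ n ∈ Finset.Icc 1 N, ∑ m ∈ Finset.Icc 1 N,
          (if (n ≤ m + 2 * K ∧ m ≤ n + 2 * K) then (1 : ℝ) else 0) :=
        Finset.sum_le_sum fun n _ => Finset.sum_le_sum fun m _ => hbound n m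
    _ ≤ ∑ n ∈ Finset.Icc 1 N, (4 * (K : ℝ) + 1) := Finset.sum_le_sum fun n _ => hcard n
    _ = N * (4 * K + 1) := by
        rw [Finset.sum_const, Nat.card_Icc, nsmul_eq_mul]
        simp

lemma sps_eq (c : ℝ) (ω : ℕ → Bool) :
    signedPowerSum c ω = ∑' i, sg (ω i) * c ^ i := by
  unfold signedPowerSum
  refine tsum_congr fun i => ?_
  unfold sg
  split_ifs <;> simp

/-- splitting of `t β^(n+K) X` in the past, window and tail parts -/
lemma sps_decomp (β : ℝ) (h1 : 1 < β) (t A : ℝ) (ht : 1 ≤ t) (K n : ℕ)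
    (hK : t * β ^ (-(K : ℤ)) ≤ A) (ω : ℕ → Bool) :
    ∃ T : ℝ, |T| ≤ A / (β - 1) ∧ t * β ^ (n + K) * signedPowerSum β⁻¹ ω =
      (∑ i ∈ Finset.range n, sg (ω i) * (t * β ^ ((n : ℤ) + K - i))) +
      (∑ i ∈ Finset.Ico n (n + 2 * K + 1), sg (ω i) * (t * β ^ ((n : ℤ) + K - i))) + T := by
  have hβ0 : (0 : ℝ) < β := by linarith
  have hβne : β ≠ 0 := hβ0.ne'
  have hinv0 : 0 ≤ β⁻¹ := inv_nonneg.2 hβ0.le
  have hinv1 : β⁻¹ < 1 := inv_lt_one_of_one_lt₀ h1
  set f : ℕ → ℝ := fun i => sg (ω i) * (t * β ^ ((n : ℤ) + K - i)) with hf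
  have hfi : ∀ i : ℕ, f i = t * β ^ (n + K) * (sg (ω i) * β⁻¹ ^ i) := by
    intro i
    rw [hf]
    simp only
    rw [zpow_sub₀ hβne, zpow_natCast, inv_pow]
    rw [show ((n : ℤ) + K) = ((n + K : ℕ) : ℤ) by push_cast; ring, zpow_natCast]
    field_simp
  have hgeo : Summable fun i : ℕ => β⁻¹ ^ i := summable_geometric_of_lt_one hinv0 hinv1
  have hs0 : Summable fun i : ℕ => sg (ω i) * β⁻¹ ^ i := by
    refine Summable.of_norm_bounded hgeo fun i => ?_
    rw [Real.norm_eq_abs, abs_mul, sg_abs, one_mul, abs_of_nonneg (pow_nonneg hinv0 _)]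
  have hs : Summable f := by
    have := hs0.mul_left (t * β ^ (n + K))
    exact this.congr fun i => (hfi i).symm
  refine ⟨∑' i, f (i + (n + 2 * K + 1)), ?_, ?_⟩
  · have hg : HasSum (fun i : ℕ => t * β ^ (-(K : ℤ)) * β⁻¹ * β⁻¹ ^ i)
        (t * β ^ (-(K : ℤ)) * β⁻¹ * (1 - β⁻¹)⁻¹) :=
      (hasSum_geometric_of_lt_one hinv0 hinv1).mul_left _
    have hb : ∀ i : ℕ, ‖f (i + (n + 2 * K + 1))‖ ≤ t * β ^ (-(K : ℤ)) * β⁻¹ * β⁻¹ ^ i := by
      intro i
      rw [Real.norm_eq_abs, hf]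
      simp only
      rw [abs_mul, sg_abs, one_mul, abs_of_nonneg (by positivity)]
      apply le_of_eq
      have e : ((n : ℤ) + K - ((i + (n + 2 * K + 1) : ℕ) : ℤ)) = -(K : ℤ) + (-1) + -(i : ℤ) := by
        push_cast; ring
      rw [e, zpow_add₀ hβne, zpow_add₀ hβne, zpow_neg_one, zpow_neg β (i : ℤ), zpow_natCast,
        inv_pow]
      ring
    have h2 := tsum_of_norm_bounded hg hb
    rw [Real.norm_eq_abs] at h2
    refine h2.trans ?_
    have e : t * β ^ (-(K : ℤ)) * β⁻¹ * (1 - β⁻¹)⁻¹ = t * β ^ (-(K : ℤ)) / (β - 1) := by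
      have : β - 1 ≠ 0 := by linarith
      have h3 : 1 - β⁻¹ = (β - 1) / β := by field_simp
      rw [h3]
      field_simp
    rw [e]
    exact div_le_div_of_nonneg_right hK (by linarith)
  · rw [sps_eq, ← tsum_mul_left]
    have e : ∑' i, t * β ^ (n + K) * (sg (ω i) * β⁻¹ ^ i) = ∑' i, f i :=
      tsum_congr fun i => (hfi i).symm
    rw [e, ← hs.sum_add_tsum_nat_add (n + 2 * K + 1)]
    congr 1
    rw [Finset.range_eq_Ico, Finset.range_eq_Ico, Finset.sum_Ico_consecutive _ (Nat.zero_le _)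
      (by omega)]

lemma prod_window (β t : ℝ) (K n : ℕ) :
    ∏ i ∈ Finset.Ico n (n + 2 * K + 1), cc (t * β ^ ((n : ℤ) + K - i)) = q β t K := by
  unfold q
  refine Finset.prod_nbij' (fun i => (n : ℤ) + K - i) (fun m => ((n : ℤ) + K - m).toNat)
    ?_ ?_ ?_ ?_ ?_
  · intro i hi
    rw [Finset.mem_Ico] at hi
    rw [Finset.mem_Icc]
    omega
  · intro m hm
    rw [Finset.mem_Icc] at hm
    rw [Finset.mem_Ico]
    omega
  · intro i hi
    rw [Finset.mem_Ico] at hi
    omega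
  · intro m hm
    rw [Finset.mem_Icc] at hm
    omega
  · intro i _
    rfl

/-- TASK C2: L² estimate under the coin measure -/
theorem taskC2 (β : ℝ) (h1 : 1 < β) (t A : ℝ) (K N : ℕ) (hN : 0 < N) (ht : 1 ≤ t) (hA : 0 < A)
    (hK : t * β ^ (-(K : ℤ)) ≤ A)
    (hw : ∀ m : ℤ, (K : ℤ) < m → ∃ n : ℤ, |t * β ^ m - n| ≤ 2 * A) :
    ∫ ω, (F β t K N (signedPowerSum β⁻¹ ω) - q β t K) ^ 2 ∂coins ≤
      3 * ((2 * π * A / (β - 1)) ^ 2 + 16 * π ^ 2 * N * A ^ 2 + (4 * K + 1) / N) := by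
  have hNR : (0 : ℝ) < N := by exact_mod_cast hN
  have hb1 : 0 < β - 1 := by linarith
  choose! z hz using hw
  -- the perturbation coefficients
  set w : ℕ → ℕ → ℝ := fun n i => t * β ^ ((n : ℤ) + K - i) - z ((n : ℤ) + K - i) with hwdef
  set H : ℕ → (ℕ → Bool) → ℝ := fun n ω => ∑ i ∈ Finset.range n, sg (ω i) * w n i with hH
  set W : ℕ → (ℕ → Bool) → ℝ := fun n ω =>
    ∑ i ∈ Finset.Ico n (n + 2 * K + 1), sg (ω i) * (t * β ^ ((n : ℤ) + K - i)) with hW
  set Q := q β t K with hQ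
  have hwle : ∀ n : ℕ, ∀ i ∈ Finset.range n, |w n i| ≤ 2 * A := by
    intro n i hi
    rw [Finset.mem_range] at hi
    exact hz _ (by omega)
  choose T hT hdec using fun (n : ℕ) (ω : ℕ → Bool) => sps_decomp β h1 t A ht K n hK ω
  -- reduction mod 1
  have hcc : ∀ n ω, cc (t * β ^ (n + K) * signedPowerSum β⁻¹ ω) = cc (W n ω + H n ω + T n ω) := by
    intro n ω
    have hint : ∃ k : ℤ, ∑ i ∈ Finset.range n, sg (ω i) * (t * β ^ ((n : ℤ) + K - i)) =
        H n ω + k := by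
      refine ⟨∑ i ∈ Finset.range n, (if ω i then 1 else -1) * z ((n : ℤ) + K - i), ?_⟩
      rw [hH]
      simp only
      push_cast
      rw [← Finset.sum_add_distrib]
      refine Finset.sum_congr rfl fun i _ => ?_
      rw [hwdef]
      simp only [sg]
      split_ifs <;> push_cast <;> ring
    obtain ⟨k, hk⟩ := hint
    rw [hdec, hk, ← cc_add_int (W n ω + H n ω + T n ω) k]
    congr 1
    rw [hW]
    ring
  -- pointwise bound
  set α : ℝ := 2 * π * A / (β - 1) with hα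
  have hpt : ∀ ω, (F β t K N (signedPowerSum β⁻¹ ω) - Q) ^ 2 ≤
      3 * (α ^ 2 + (1 / (N : ℝ)) * ∑ n ∈ Finset.Icc 1 N, (2 * π) ^ 2 * (H n ω) ^ 2 +
        (1 / (N : ℝ) ^ 2) * (∑ n ∈ Finset.Icc 1 N, (cc (W n ω) - Q)) ^ 2) := by
    intro ω
    have hF : F β t K N (signedPowerSum β⁻¹ ω) - Q =
        (1 / (N : ℝ)) * ∑ n ∈ Finset.Icc 1 N, (cc (W n ω + H n ω + T n ω) - cc (W n ω + H n ω)) +
        (1 / (N : ℝ)) * ∑ n ∈ Finset.Icc 1 N, (cc (W n ω + H n ω) - cc (W n ω)) +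
        (1 / (N : ℝ)) * ∑ n ∈ Finset.Icc 1 N, (cc (W n ω) - Q) := by
      rw [← mul_add, ← mul_add, ← Finset.sum_add_distrib, ← Finset.sum_add_distrib]
      unfold F
      simp_rw [hcc]
      have : ∑ n ∈ Finset.Icc 1 N, (cc (W n ω + H n ω + T n ω) - cc (W n ω + H n ω) +
          (cc (W n ω + H n ω) - cc (W n ω)) + (cc (W n ω) - Q)) =
          ∑ n ∈ Finset.Icc 1 N, (cc (W n ω + H n ω + T n ω) - Q) :=
        Finset.sum_congr rfl fun n _ => by ring
      rw [this, Finset.sum_sub_distrib, Finset.sum_const, Nat.card_Icc, nsmul_eq_mul]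
      simp only [Nat.add_sub_cancel]
      field_simp
    have hx : ((1 / (N : ℝ)) * ∑ n ∈ Finset.Icc 1 N,
        (cc (W n ω + H n ω + T n ω) - cc (W n ω + H n ω))) ^ 2 ≤ α ^ 2 := by
      rw [← sq_abs]
      refine pow_le_pow_left₀ (abs_nonneg _) ?_ 2
      rw [abs_mul, abs_of_pos (by positivity : (0 : ℝ) < 1 / N)]
      have : |∑ n ∈ Finset.Icc 1 N, (cc (W n ω + H n ω + T n ω) - cc (W n ω + H n ω))| ≤
          ∑ n ∈ Finset.Icc 1 N, α := by
        refine (Finset.abs_sum_le_sum_abs _ _).trans (Finset.sum_le_sum fun n _ => ?_)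
        refine (abs_cc_sub_le _ _).trans ?_
        rw [hα, mul_div_assoc]
        exact mul_le_mul_of_nonneg_left (hT n ω) (by positivity)
      rw [Finset.sum_const, Nat.card_Icc, nsmul_eq_mul, Nat.add_sub_cancel] at this
      calc 1 / (N : ℝ) * _ ≤ 1 / (N : ℝ) * (N * α) :=
            mul_le_mul_of_nonneg_left this (by positivity)
        _ = α := by field_simp
    have hy : ((1 / (N : ℝ)) * ∑ n ∈ Finset.Icc 1 N,
        (cc (W n ω + H n ω) - cc (W n ω))) ^ 2 ≤
        (1 / (N : ℝ)) * ∑ n ∈ Finset.Icc 1 N, (2 * π) ^ 2 * (H n ω) ^ 2 := by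
      rw [mul_pow]
      have h3 := sq_sum_le_card_mul_sum_sq (s := Finset.Icc 1 N)
        (f := fun n => cc (W n ω + H n ω) - cc (W n ω))
      rw [Nat.card_Icc, Nat.add_sub_cancel] at h3
      have h4 : ∑ n ∈ Finset.Icc 1 N, (cc (W n ω + H n ω) - cc (W n ω)) ^ 2 ≤
          ∑ n ∈ Finset.Icc 1 N, (2 * π) ^ 2 * (H n ω) ^ 2 := by
        refine Finset.sum_le_sum fun n _ => ?_
        rw [← sq_abs, ← mul_pow, ← sq_abs (2 * π * H n ω)]
        refine pow_le_pow_left₀ (abs_nonneg _) ?_ 2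
        refine (abs_cc_sub_le _ _).trans ?_
        rw [abs_mul (2 * π), abs_of_pos (by positivity : (0 : ℝ) < 2 * π)]
      calc (1 / (N : ℝ)) ^ 2 * (∑ n ∈ Finset.Icc 1 N, (cc (W n ω + H n ω) - cc (W n ω))) ^ 2
          ≤ (1 / (N : ℝ)) ^ 2 * (N * ∑ n ∈ Finset.Icc 1 N, (2 * π) ^ 2 * (H n ω) ^ 2) := by
            refine mul_le_mul_of_nonneg_left (h3.trans ?_) (by positivity)
            exact mul_le_mul_of_nonneg_left h4 hNR.le
        _ = (1 / (N : ℝ)) * ∑ n ∈ Finset.Icc 1 N, (2 * π) ^ 2 * (H n ω) ^ 2 := by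
            field_simp
    have hzz : ((1 / (N : ℝ)) * ∑ n ∈ Finset.Icc 1 N, (cc (W n ω) - Q)) ^ 2 =
        (1 / (N : ℝ) ^ 2) * (∑ n ∈ Finset.Icc 1 N, (cc (W n ω) - Q)) ^ 2 := by
      rw [mul_pow]; congr 1; rw [div_pow, one_pow]
    rw [hF]
    set x := (1 / (N : ℝ)) * ∑ n ∈ Finset.Icc 1 N,
        (cc (W n ω + H n ω + T n ω) - cc (W n ω + H n ω)) with hxd
    set y := (1 / (N : ℝ)) * ∑ n ∈ Finset.Icc 1 N,
        (cc (W n ω + H n ω) - cc (W n ω)) with hyd
    set v := (1 / (N : ℝ)) * ∑ n ∈ Finset.Icc 1 N, (cc (W n ω) - Q) with hvd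
    rw [← hzz]
    nlinarith [sq_nonneg (x - y), sq_nonneg (y - v), sq_nonneg (x - v), hx, hy]
  -- integrability of the bound
  have hHi : ∀ n, Integrable (fun ω => (H n ω) ^ 2) coins := fun n =>
    integrable_sgsum_sq _ _
  have hi1 : Integrable (fun ω => ∑ n ∈ Finset.Icc 1 N, (2 * π) ^ 2 * (H n ω) ^ 2) coins :=
    integrable_finsetSum _ fun n _ => (hHi n).const_mul _
  have hi2 : Integrable (fun ω => (∑ n ∈ Finset.Icc 1 N, (cc (W n ω) - Q)) ^ 2) coins := by
    refine integrable_of_bdd _ ?_ ((∑ n ∈ Finset.Icc 1 N, (1 + |Q|)) ^ 2) fun ω => ?_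
    · refine Measurable.pow_const ?_ 2
      refine Finset.measurable_sum _ fun n _ => ?_
      exact (measurable_cc.comp (measurable_sgsum _ _)).sub_const _
    · rw [abs_pow]
      refine pow_le_pow_left₀ (abs_nonneg _) ?_ 2
      refine (Finset.abs_sum_le_sum_abs _ _).trans (Finset.sum_le_sum fun n _ => ?_)
      refine (abs_sub _ _).trans ?_
      exact add_le_add (abs_cc_le _) le_rfl
  have hi3 : Integrable (fun ω => 3 * (α ^ 2 +
      (1 / (N : ℝ)) * ∑ n ∈ Finset.Icc 1 N, (2 * π) ^ 2 * (H n ω) ^ 2 +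
        (1 / (N : ℝ) ^ 2) * (∑ n ∈ Finset.Icc 1 N, (cc (W n ω) - Q)) ^ 2)) coins :=
    (((integrable_const _).add (hi1.const_mul _)).add (hi2.const_mul _)).const_mul _
  have hmono := integral_mono_of_nonneg (μ := coins)
    (Filter.Eventually.of_forall fun ω => sq_nonneg (F β t K N (signedPowerSum β⁻¹ ω) - Q)) hi3
    (Filter.Eventually.of_forall hpt)
  refine hmono.trans ?_
  have j1 : Integrable (fun ω => (1 / (N : ℝ)) *
      ∑ n ∈ Finset.Icc 1 N, (2 * π) ^ 2 * (H n ω) ^ 2) coins := hi1.const_mul _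
  have j2 : Integrable (fun ω => (1 / (N : ℝ) ^ 2) *
      (∑ n ∈ Finset.Icc 1 N, (cc (W n ω) - Q)) ^ 2) coins := hi2.const_mul _
  have j3 : Integrable (fun ω => α ^ 2 + (1 / (N : ℝ)) *
      ∑ n ∈ Finset.Icc 1 N, (2 * π) ^ 2 * (H n ω) ^ 2) coins := (integrable_const _).add j1
  rw [integral_const_mul, integral_add j3 j2, integral_add (integrable_const _) j1,
    integral_const_mul, integral_const_mul, integral_const,
    integral_finsetSum _ fun n _ => (hHi n).const_mul _]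
  simp only [probReal_univ, smul_eq_mul, one_mul]
  refine mul_le_mul_of_nonneg_left ?_ (by norm_num)
  refine add_le_add (add_le_add le_rfl ?_) ?_
  · have h5 : ∀ n ∈ Finset.Icc 1 N, ∫ ω, (2 * π) ^ 2 * (H n ω) ^ 2 ∂coins ≤
        16 * π ^ 2 * N * A ^ 2 := by
      intro n hn
      rw [Finset.mem_Icc] at hn
      rw [integral_const_mul, hH]
      simp only
      rw [integral_sgsum_sq]
      have h6 : ∑ i ∈ Finset.range n, (w n i) ^ 2 ≤ ∑ i ∈ Finset.range n, (2 * A) ^ 2 := by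
        refine Finset.sum_le_sum fun i hi => ?_
        rw [← sq_abs]
        exact pow_le_pow_left₀ (abs_nonneg _) (hwle n i hi) 2
      rw [Finset.sum_const, Finset.card_range, nsmul_eq_mul] at h6
      have hnN : (n : ℝ) ≤ N := by exact_mod_cast hn.2
      have h7 : (n : ℝ) * (2 * A) ^ 2 ≤ N * (2 * A) ^ 2 :=
        mul_le_mul_of_nonneg_right hnN (sq_nonneg _)
      calc (2 * π) ^ 2 * ∑ i ∈ Finset.range n, (w n i) ^ 2
          ≤ (2 * π) ^ 2 * (N * (2 * A) ^ 2) :=
            mul_le_mul_of_nonneg_left (h6.trans h7) (sq_nonneg _)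
        _ = 16 * π ^ 2 * N * A ^ 2 := by ring
    calc 1 / (N : ℝ) * ∑ n ∈ Finset.Icc 1 N, ∫ ω, (2 * π) ^ 2 * (H n ω) ^ 2 ∂coins
        ≤ 1 / (N : ℝ) * ∑ n ∈ Finset.Icc 1 N, 16 * π ^ 2 * N * A ^ 2 :=
          mul_le_mul_of_nonneg_left (Finset.sum_le_sum h5) (by positivity)
      _ = 16 * π ^ 2 * N * A ^ 2 := by
          rw [Finset.sum_const, Nat.card_Icc, nsmul_eq_mul, Nat.add_sub_cancel]
          field_simp
  · have h8 := window_moment K N (fun n i => t * β ^ ((n : ℤ) + K - i)) Q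
      (fun n => prod_window β t K n)
    calc 1 / (N : ℝ) ^ 2 * ∫ ω, (∑ n ∈ Finset.Icc 1 N, (cc (W n ω) - Q)) ^ 2 ∂coins
        ≤ 1 / (N : ℝ) ^ 2 * (N * (4 * K + 1)) :=
          mul_le_mul_of_nonneg_left h8 (by positivity)
      _ = (4 * K + 1) / N := by field_simp

end Crest.Agent.R104
end

-- ▼ part R104/LebSide
section

/-!
P3 of the S0137 blueprint: the square integral over `[-R,R]` of an average of separated cosines.
-/

open MeasureTheory Filter Set
open scoped ENNReal NNReal Topology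

namespace Crest.Agent.R104

/-- `∫_{-R}^{R} cos (2π a x) dx` is at most `1/(π|a|)` in absolute value. -/
lemma abs_integral_cos_le (a R : ℝ) (ha : a ≠ 0) :
    |∫ x in (-R)..R, Real.cos (2 * Real.pi * a * x)| ≤ 1 / (Real.pi * |a|) := by
  have hpi := Real.pi_pos
  have hne : 2 * Real.pi * a ≠ 0 := by positivity
  have h1 : ∫ x in (-R)..R, Real.cos (2 * Real.pi * a * x)
      = (2 * Real.pi * a)⁻¹ * (Real.sin (2 * Real.pi * a * R) - Real.sin (2 * Real.pi * a * (-R))) := by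
    rw [intervalIntegral.integral_comp_mul_left (fun x => Real.cos x) hne, integral_cos]
    simp
  rw [h1, abs_mul, abs_inv]
  have h2 : |Real.sin (2 * Real.pi * a * R) - Real.sin (2 * Real.pi * a * (-R))| ≤ 2 := by
    have h3 := Real.abs_sin_le_one (2 * Real.pi * a * R)
    have h4 := Real.abs_sin_le_one (2 * Real.pi * a * (-R))
    calc _ ≤ |Real.sin (2 * Real.pi * a * R)| + |Real.sin (2 * Real.pi * a * (-R))| := abs_sub _ _
      _ ≤ 2 := by linarith
  have h5 : |2 * Real.pi * a| = 2 * Real.pi * |a| := by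
    rw [abs_mul, abs_of_pos (by positivity : (0:ℝ) < 2 * Real.pi)]
  rw [h5]
  have ha' : 0 < |a| := abs_pos.mpr ha
  calc (2 * Real.pi * |a|)⁻¹ * |Real.sin (2 * Real.pi * a * R) - Real.sin (2 * Real.pi * a * (-R))|
      ≤ (2 * Real.pi * |a|)⁻¹ * 2 := by gcongr
    _ = 1 / (Real.pi * |a|) := by field_simp

/-- off-diagonal product of cosines -/
lemma abs_integral_cos_mul_cos_le (a b R D : ℝ) (hD : 0 < D) (h1 : D ≤ |a - b|)
    (h2 : D ≤ |a + b|) :
    |∫ x in (-R)..R, Real.cos (2 * Real.pi * a * x) * Real.cos (2 * Real.pi * b * x)|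
      ≤ 1 / (Real.pi * D) := by
  have hpi := Real.pi_pos
  have hc : ∀ c : ℝ, IntervalIntegrable (fun x => Real.cos (2 * Real.pi * c * x)) volume (-R) R :=
    fun c => (by fun_prop : Continuous fun x => Real.cos (2 * Real.pi * c * x)).intervalIntegrable _ _
  have h3 : ∀ x : ℝ, Real.cos (2 * Real.pi * a * x) * Real.cos (2 * Real.pi * b * x)
      = (1 / 2) * (Real.cos (2 * Real.pi * (a - b) * x) + Real.cos (2 * Real.pi * (a + b) * x)) := by
    intro x
    have e1 : 2 * Real.pi * (a - b) * x = 2 * Real.pi * a * x - 2 * Real.pi * b * x := by ring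
    have e2 : 2 * Real.pi * (a + b) * x = 2 * Real.pi * a * x + 2 * Real.pi * b * x := by ring
    rw [e1, e2, Real.cos_sub, Real.cos_add]
    ring
  simp_rw [h3]
  rw [intervalIntegral.integral_const_mul, intervalIntegral.integral_add (hc _) (hc _)]
  have hab : a - b ≠ 0 := fun h => by rw [h, abs_zero] at h1; linarith
  have hab' : a + b ≠ 0 := fun h => by rw [h, abs_zero] at h2; linarith
  have h4 := abs_integral_cos_le (a - b) R hab
  have h5 := abs_integral_cos_le (a + b) R hab'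
  have h6 : 1 / (Real.pi * |a - b|) ≤ 1 / (Real.pi * D) := by gcongr
  have h7 : 1 / (Real.pi * |a + b|) ≤ 1 / (Real.pi * D) := by gcongr
  rw [abs_mul]
  calc |(1:ℝ) / 2| * |(∫ x in (-R)..R, Real.cos (2 * Real.pi * (a - b) * x)) +
        ∫ x in (-R)..R, Real.cos (2 * Real.pi * (a + b) * x)|
      ≤ (1 / 2) * (|∫ x in (-R)..R, Real.cos (2 * Real.pi * (a - b) * x)| +
        |∫ x in (-R)..R, Real.cos (2 * Real.pi * (a + b) * x)|) := by
        rw [abs_of_pos (by norm_num : (0:ℝ) < 1 / 2)]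
        gcongr
        exact abs_add_le _ _
    _ ≤ (1 / 2) * (1 / (Real.pi * D) + 1 / (Real.pi * D)) := by
        gcongr
        · exact h4.trans h6
        · exact h5.trans h7
    _ = 1 / (Real.pi * D) := by ring

/-- P3, general form: average of `N` cosines with `D`-separated frequencies. -/
theorem integral_sq_avg_cos_le (N : ℕ) (hN : 0 < N) (T : ℕ → ℝ) (R D : ℝ) (hR : 0 ≤ R)
    (hD : 0 < D)
    (hsub : ∀ i ∈ Finset.range N, ∀ j ∈ Finset.range N, i ≠ j → D ≤ |T i - T j|)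
    (hadd : ∀ i ∈ Finset.range N, ∀ j ∈ Finset.range N, i ≠ j → D ≤ |T i + T j|) :
    ∫ x in Set.Icc (-R) R, ((1 / (N : ℝ)) * ∑ n ∈ Finset.range N, Real.cos (2 * Real.pi * T n * x)) ^ 2
      ≤ 2 * R / N + 1 / (Real.pi * D) := by
  have hpi := Real.pi_pos
  have hNpos : (0 : ℝ) < N := by exact_mod_cast hN
  rw [integral_Icc_eq_integral_Ioc, ← intervalIntegral.integral_of_le (by linarith)]
  have h1 : ∀ x : ℝ, ((1 / (N : ℝ)) * ∑ n ∈ Finset.range N, Real.cos (2 * Real.pi * T n * x)) ^ 2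
      = (1 / (N : ℝ) ^ 2) * ∑ i ∈ Finset.range N, ∑ j ∈ Finset.range N,
        Real.cos (2 * Real.pi * T i * x) * Real.cos (2 * Real.pi * T j * x) := by
    intro x
    rw [mul_pow, sq (∑ n ∈ Finset.range N, Real.cos (2 * Real.pi * T n * x)),
      Finset.sum_mul_sum]
    ring
  simp_rw [h1]
  have hcont : ∀ i j : ℕ, IntervalIntegrable (fun x => Real.cos (2 * Real.pi * T i * x) *
      Real.cos (2 * Real.pi * T j * x)) volume (-R) R :=
    fun i j => (by fun_prop : Continuous fun x => Real.cos (2 * Real.pi * T i * x) *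
      Real.cos (2 * Real.pi * T j * x)).intervalIntegrable _ _
  rw [intervalIntegral.integral_const_mul]
  rw [intervalIntegral.integral_finsetSum (fun i _ =>
    (by fun_prop : Continuous fun x => ∑ j ∈ Finset.range N,
      Real.cos (2 * Real.pi * T i * x) * Real.cos (2 * Real.pi * T j * x)).intervalIntegrable _ _)]
  have h2 : ∀ i ∈ Finset.range N, ∫ x in (-R)..R, ∑ j ∈ Finset.range N,
      Real.cos (2 * Real.pi * T i * x) * Real.cos (2 * Real.pi * T j * x)
      ≤ 2 * R + N * (1 / (Real.pi * D)) := by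
    intro i hi
    rw [intervalIntegral.integral_finsetSum (fun j _ => hcont i j)]
    rw [← Finset.add_sum_erase _ _ hi]
    have h3 : ∫ x in (-R)..R, Real.cos (2 * Real.pi * T i * x) * Real.cos (2 * Real.pi * T i * x)
        ≤ 2 * R := by
      calc ∫ x in (-R)..R, Real.cos (2 * Real.pi * T i * x) * Real.cos (2 * Real.pi * T i * x)
          ≤ ∫ x in (-R)..R, (1 : ℝ) := by
            apply intervalIntegral.integral_mono_on (by linarith) (hcont i i)
              intervalIntegrable_const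
            intro x _
            have := Real.cos_sq_le_one (2 * Real.pi * T i * x)
            rw [sq] at this
            exact this
        _ = 2 * R := by simp; ring
    have h4 : ∑ j ∈ (Finset.range N).erase i, ∫ x in (-R)..R,
        Real.cos (2 * Real.pi * T i * x) * Real.cos (2 * Real.pi * T j * x)
        ≤ N * (1 / (Real.pi * D)) := by
      calc ∑ j ∈ (Finset.range N).erase i, ∫ x in (-R)..R,
            Real.cos (2 * Real.pi * T i * x) * Real.cos (2 * Real.pi * T j * x)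
          ≤ ∑ j ∈ (Finset.range N).erase i, (1 / (Real.pi * D)) := by
            apply Finset.sum_le_sum
            intro j hj
            rw [Finset.mem_erase] at hj
            exact (le_abs_self _).trans (abs_integral_cos_mul_cos_le _ _ R D hD
              (hsub i hi j hj.2 (Ne.symm hj.1)) (hadd i hi j hj.2 (Ne.symm hj.1)))
        _ ≤ N * (1 / (Real.pi * D)) := by
            rw [Finset.sum_const, nsmul_eq_mul]
            have : (((Finset.range N).erase i).card : ℝ) ≤ N := by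
              have := Finset.card_erase_le (s := Finset.range N) (a := i)
              rw [Finset.card_range] at this
              exact_mod_cast this
            gcongr
    linarith
  calc (1 / (N : ℝ) ^ 2) * ∑ i ∈ Finset.range N, ∫ x in (-R)..R, ∑ j ∈ Finset.range N,
        Real.cos (2 * Real.pi * T i * x) * Real.cos (2 * Real.pi * T j * x)
      ≤ (1 / (N : ℝ) ^ 2) * ∑ i ∈ Finset.range N, (2 * R + N * (1 / (Real.pi * D))) := by
        gcongr with i hi
        exact h2 i hi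
    _ = 2 * R / N + 1 / (Real.pi * D) := by
        rw [Finset.sum_const, Finset.card_range, nsmul_eq_mul]
        field_simp

/-- P3 for the frequencies `t β^(n+K)`, `1 ≤ n ≤ N`. -/
theorem integral_sq_avg_cos_geom_le (β t A R : ℝ) (K N : ℕ) (hβ : 1 < β) (ht : 1 ≤ t)
    (hA : t * β⁻¹ ^ K ≤ A) (hN : 0 < N) (hR : 0 ≤ R) :
    ∫ x in Set.Icc (-R) R,
      ((1 / (N : ℝ)) * ∑ n ∈ Finset.range N, Real.cos (2 * Real.pi * (t * β ^ (n + 1 + K)) * x)) ^ 2
      ≤ 2 * R / N + A / (Real.pi * (β - 1)) := by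
  have hpi := Real.pi_pos
  have hβ0 : 0 < β := by linarith
  have hβ1 : 0 < β - 1 := by linarith
  have ht0 : 0 < t := by linarith
  set D : ℝ := t * β ^ K * (β - 1) with hDdef
  have hD : 0 < D := by positivity
  -- separation
  have key : ∀ i j : ℕ, i < j → D ≤ t * β ^ (j + 1 + K) - t * β ^ (i + 1 + K) := by
    intro i j hij
    have h1 : β ^ (i + 1) ≤ β ^ j := pow_le_pow_right₀ hβ.le hij
    have h2 : (1 : ℝ) ≤ β ^ j := one_le_pow₀ hβ.le
    calc D = t * β ^ K * (β - 1) * 1 := by rw [hDdef]; ring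
      _ ≤ t * β ^ K * (β - 1) * β ^ j := by gcongr
      _ = t * β ^ K * (β ^ (j + 1) - β ^ j) := by ring
      _ ≤ t * β ^ K * (β ^ (j + 1) - β ^ (i + 1)) := by gcongr
      _ = t * β ^ (j + 1 + K) - t * β ^ (i + 1 + K) := by ring
  have hsub : ∀ i ∈ Finset.range N, ∀ j ∈ Finset.range N, i ≠ j →
      D ≤ |t * β ^ (i + 1 + K) - t * β ^ (j + 1 + K)| := by
    intro i _ j _ hij
    rcases lt_or_gt_of_ne hij with h | h
    · rw [abs_sub_comm]; exact (key i j h).trans (le_abs_self _)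
    · exact (key j i h).trans (le_abs_self _)
  have hadd : ∀ i ∈ Finset.range N, ∀ j ∈ Finset.range N, i ≠ j →
      D ≤ |t * β ^ (i + 1 + K) + t * β ^ (j + 1 + K)| := by
    intro i _ j _ hij
    have hp1 : 0 < t * β ^ (i + 1 + K) := by positivity
    have hp2 : 0 < t * β ^ (j + 1 + K) := by positivity
    rw [abs_of_pos (by positivity)]
    rcases lt_or_gt_of_ne hij with h | h
    · have := key i j h; linarith
    · have := key j i h; linarith
  have h1 := integral_sq_avg_cos_le N hN (fun n => t * β ^ (n + 1 + K)) R D hR hD hsub hadd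
  refine h1.trans ?_
  have h2 : 1 / (Real.pi * D) ≤ A / (Real.pi * (β - 1)) := by
    have hA' : t ≤ A * β ^ K := by
      have h3 : t * β⁻¹ ^ K * β ^ K ≤ A * β ^ K := by gcongr
      rw [mul_assoc, ← mul_pow, inv_mul_cancel₀ hβ0.ne', one_pow, mul_one] at h3
      exact h3
    have h4 : 1 ≤ A * (t * β ^ K) := by
      have hAK : 0 < A * β ^ K := by linarith
      nlinarith
    rw [div_le_div_iff₀ (by positivity) (by positivity)]
    calc 1 * (Real.pi * (β - 1)) ≤ (A * (t * β ^ K)) * (Real.pi * (β - 1)) := by gcongr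
      _ = A * (Real.pi * D) := by rw [hDdef]; ring
  linarith

end Crest.Agent.R104
end

-- ▼ part R104/D
section

/-!
Task D for S0137.
-/

set_option autoImplicit false

namespace Crest.Agent.R104

open MeasureTheory Crest.AnalysisR
open scoped Real

/-- TASK D: Lebesgue estimate -/
theorem taskD (β : ℝ) (h1 : 1 < β) (t A : ℝ) (K N : ℕ) (hN : 0 < N) (ht : 1 ≤ t) (_hA : 0 < A)
    (hK : t * β ^ (-(K : ℤ)) ≤ A) (R : ℝ) (hR : 0 ≤ R) :
    ∫ x in (-R)..R, (F β t K N x) ^ 2 ≤ 2 * R / N + A / (π * (β - 1)) := by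
  have hK' : t * β⁻¹ ^ K ≤ A := by
    rwa [zpow_neg, zpow_natCast, ← inv_pow] at hK
  have h2 := integral_sq_avg_cos_geom_le β t A R K N h1 ht hK' hN hR
  rw [intervalIntegral.integral_of_le (by linarith), ← integral_Icc_eq_integral_Ioc]
  refine le_trans (le_of_eq ?_) h2
  congr 1
  ext x
  unfold F cc
  congr 2
  have e : Finset.Icc 1 N = (Finset.range N).image (· + 1) := by
    ext n
    simp only [Finset.mem_Icc, Finset.mem_image, Finset.mem_range]
    constructor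
    · intro h
      exact ⟨n - 1, by omega, by omega⟩
    · rintro ⟨m, hm, rfl⟩
      omega
  rw [e, Finset.sum_image (by intro a _ b _ h; simpa using h)]
  apply Finset.sum_congr rfl
  intro n _
  congr 1
  ring

end Crest.Agent.R104
end

-- ▼ part R104/Criterion
section

/-!
P4 of the S0137 blueprint: an L² separation criterion for mutual singularity with Lebesgue measure.
-/

open MeasureTheory Filter Set
open scoped ENNReal NNReal Topology

namespace Crest.Agent.R104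

/-- If `μ` is a probability measure carried by `[-R, R]` and for every `κ > 0` there are a
continuous function `F` and `q ≠ 0` with `∫ (F - q)² dμ ≤ κ q²` and `∫_{[-R,R]} F² ≤ κ q²`,
then `μ` is singular with respect to Lebesgue measure. -/
theorem mutuallySingular_of_l2_separation {μ : Measure ℝ} [IsProbabilityMeasure μ] {R : ℝ}
    (hsupp : μ (Set.Icc (-R) R)ᶜ = 0)
    (h : ∀ κ : ℝ, 0 < κ → ∃ (F : ℝ → ℝ) (q : ℝ), Continuous F ∧ q ≠ 0 ∧
      Integrable (fun x => (F x - q) ^ 2) μ ∧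
      ∫ x, (F x - q) ^ 2 ∂μ ≤ κ * q ^ 2 ∧
      ∫ x in Set.Icc (-R) R, (F x) ^ 2 ≤ κ * q ^ 2) :
    μ ⟂ₘ (volume : Measure ℝ) := by
  -- choose the sequence
  have hκ : ∀ k : ℕ, (0 : ℝ) < (1 / 2 : ℝ) ^ k / 4 := fun k => by positivity
  choose F q hFc hq hint hμ hvol using fun k : ℕ => h ((1 / 2 : ℝ) ^ k / 4) (hκ k)
  -- the sets
  let A : ℕ → Set ℝ := fun k => {x | x ∈ Set.Icc (-R) R ∧ (q k) ^ 2 / 4 ≤ (F k x) ^ 2}
  have hAm : ∀ k, MeasurableSet (A k) := by
    intro k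
    apply MeasurableSet.inter measurableSet_Icc
    exact measurableSet_le measurable_const ((hFc k).measurable.pow_const 2)
  have hqpos : ∀ k, 0 < (q k) ^ 2 / 4 := fun k => by
    have := hq k
    positivity
  -- volume bound
  have hAvol : ∀ k, volume (A k) ≤ ENNReal.ofReal ((1 / 2 : ℝ) ^ k) := by
    intro k
    have hF2 : IntegrableOn (fun x => (F k x) ^ 2) (Set.Icc (-R) R) volume :=
      ((hFc k).pow 2).continuousOn.integrableOn_Icc
    have h1 := mul_meas_ge_le_integral_of_nonneg (μ := volume.restrict (Set.Icc (-R) R))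
      (f := fun x => (F k x) ^ 2) (Eventually.of_forall fun x => sq_nonneg _) hF2
      ((q k) ^ 2 / 4)
    have h2 : (volume.restrict (Set.Icc (-R) R)).real {x | (q k) ^ 2 / 4 ≤ (F k x) ^ 2}
        ≤ (1 / 2 : ℝ) ^ k := by
      have h3 := h1.trans (hvol k)
      have h4 : (q k) ^ 2 / 4 * (volume.restrict (Set.Icc (-R) R)).real
          {x | (q k) ^ 2 / 4 ≤ (F k x) ^ 2} ≤ (q k) ^ 2 / 4 * (1 / 2 : ℝ) ^ k := by
        calc _ ≤ (1 / 2 : ℝ) ^ k / 4 * (q k) ^ 2 := h3
          _ = _ := by ring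
      exact le_of_mul_le_mul_left h4 (hqpos k)
    have h5 : volume (A k) = (volume.restrict (Set.Icc (-R) R))
        {x | (q k) ^ 2 / 4 ≤ (F k x) ^ 2} := by
      rw [Measure.restrict_apply (measurableSet_le measurable_const
        ((hFc k).measurable.pow_const 2))]
      congr 1
      ext x
      simp only [A, mem_ofPred_eq, mem_inter_iff]
      tauto
    rw [h5]
    have hfin : (volume.restrict (Set.Icc (-R) R)) {x | (q k) ^ 2 / 4 ≤ (F k x) ^ 2} ≠ ∞ := by
      exact measure_ne_top _ _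
    rw [← ENNReal.ofReal_toReal hfin]
    exact ENNReal.ofReal_le_ofReal h2
  -- μ bound
  have hAμ : ∀ k, μ (A k)ᶜ ≤ ENNReal.ofReal ((1 / 2 : ℝ) ^ k) := by
    intro k
    have h1 := mul_meas_ge_le_integral_of_nonneg (μ := μ)
      (f := fun x => (F k x - q k) ^ 2) (Eventually.of_forall fun x => sq_nonneg _) (hint k)
      ((q k) ^ 2 / 4)
    have h2 : μ.real {x | (q k) ^ 2 / 4 ≤ (F k x - q k) ^ 2} ≤ (1 / 2 : ℝ) ^ k := by
      have h3 := h1.trans (hμ k)
      have h4 : (q k) ^ 2 / 4 * μ.real {x | (q k) ^ 2 / 4 ≤ (F k x - q k) ^ 2}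
          ≤ (q k) ^ 2 / 4 * (1 / 2 : ℝ) ^ k := by
        calc _ ≤ (1 / 2 : ℝ) ^ k / 4 * (q k) ^ 2 := h3
          _ = _ := by ring
      exact le_of_mul_le_mul_left h4 (hqpos k)
    have hsub : (A k)ᶜ ⊆ (Set.Icc (-R) R)ᶜ ∪ {x | (q k) ^ 2 / 4 ≤ (F k x - q k) ^ 2} := by
      intro x hx
      by_cases hxR : x ∈ Set.Icc (-R) R
      · right
        have hx' : (F k x) ^ 2 < (q k) ^ 2 / 4 := by
          by_contra hcon
          exact hx ⟨hxR, not_lt.mp hcon⟩
        change (q k) ^ 2 / 4 ≤ (F k x - q k) ^ 2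
        -- |F| < |q|/2 so |F - q| > |q|/2
        have h5 : |F k x| < |q k| / 2 := by
          apply abs_lt_of_sq_lt_sq _ (by positivity)
          rw [div_pow, sq_abs]; norm_num; linarith
        have h6 : |q k| / 2 ≤ |F k x - q k| := by
          have := abs_sub_abs_le_abs_sub (q k) (F k x)
          rw [abs_sub_comm] at this
          linarith
        have h7 : (|q k| / 2) ^ 2 ≤ |F k x - q k| ^ 2 := by
          apply pow_le_pow_left₀ (by positivity) h6
        rw [div_pow, sq_abs, sq_abs] at h7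
        norm_num at h7
        exact h7
      · left; exact hxR
    calc μ (A k)ᶜ ≤ μ ((Set.Icc (-R) R)ᶜ ∪ {x | (q k) ^ 2 / 4 ≤ (F k x - q k) ^ 2}) :=
          measure_mono hsub
      _ ≤ μ (Set.Icc (-R) R)ᶜ + μ {x | (q k) ^ 2 / 4 ≤ (F k x - q k) ^ 2} := measure_union_le _ _
      _ = μ {x | (q k) ^ 2 / 4 ≤ (F k x - q k) ^ 2} := by rw [hsupp, zero_add]
      _ ≤ ENNReal.ofReal ((1 / 2 : ℝ) ^ k) := by
          rw [← ENNReal.ofReal_toReal (measure_ne_top μ _)]
          exact ENNReal.ofReal_le_ofReal h2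
  have hsum : ∑' k : ℕ, ENNReal.ofReal ((1 / 2 : ℝ) ^ k) ≠ ∞ := by
    rw [← ENNReal.ofReal_tsum_of_nonneg (fun k => by positivity)
      (summable_geometric_of_lt_one (by norm_num) (by norm_num))]
    exact ENNReal.ofReal_ne_top
  -- take the limsup set
  refine ⟨(limsup A atTop)ᶜ, (MeasurableSet.measurableSet_limsup hAm).compl, ?_, ?_⟩
  · -- μ of complement of the limsup
    have h1 : ∑' k, μ (A k)ᶜ ≠ ∞ := ne_top_of_le_ne_top hsum (ENNReal.tsum_le_tsum hAμ)
    have h2 := ae_eventually_notMem h1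
    rw [ae_iff] at h2
    refine measure_mono_null ?_ h2
    intro x hx
    simp only [mem_ofPred_eq, not_eventually, mem_compl_iff, not_not] at hx ⊢
    rw [mem_limsup_iff_frequently_mem, not_frequently] at hx
    exact hx.frequently
  · rw [compl_compl]
    exact measure_limsup_atTop_eq_zero
      (ne_top_of_le_ne_top hsum (ENNReal.tsum_le_tsum hAvol))

end Crest.Agent.R104
end

-- ▼ part R104/E1

/-!
Task E1 for S0137.
-/

set_option autoImplicit false

namespace Crest.Agent.R104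

open MeasureTheory Crest.AnalysisR
open scoped Real

/-- TASK E1: singularity criterion -/
theorem taskE1 (μ : Measure ℝ) [IsProbabilityMeasure μ] (R : ℝ) (hR : 0 ≤ R)
    (hsupp : μ (Set.Icc (-R) R)ᶜ = 0)
    (h : ∀ κ : ℝ, 0 < κ → ∃ (f : ℝ → ℝ) (c : ℝ), Continuous f ∧ 0 < |c| ∧
      (∃ C, ∀ x, |f x| ≤ C) ∧
      ∫ x, (f x - c) ^ 2 ∂μ ≤ κ * c ^ 2 ∧ ∫ x in (-R)..R, (f x) ^ 2 ≤ κ * c ^ 2) :
    μ.MutuallySingular (volume : Measure ℝ) := by
  apply mutuallySingular_of_l2_separation hsupp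
  intro κ hκ
  obtain ⟨f, c, hf, hc, ⟨C, hC⟩, h1, h2⟩ := h κ hκ
  refine ⟨f, c, hf, abs_pos.mp hc, ?_, h1, ?_⟩
  · refine Integrable.of_bound (C := (C + |c|) ^ 2) ?_ ?_
    · exact ((hf.sub continuous_const).pow 2).aestronglyMeasurable
    · refine Filter.Eventually.of_forall fun x => ?_
      rw [Real.norm_eq_abs, abs_pow]
      apply pow_le_pow_left₀ (abs_nonneg _)
      calc |f x - c| ≤ |f x| + |c| := abs_sub _ _
        _ ≤ C + |c| := by gcongr; exact hC x
  · rwa [intervalIntegral.integral_of_le (by linarith), ← integral_Icc_eq_integral_Ioc] at h2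

end Crest.Agent.R104
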